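import Mathlib

namespace Vale.Agent.P090

open scoped NNReal

variable {M : Type*} [MetricSpace M]

/-- Lipschitz functions vanishing at the base point, as a subspace of all functions. -/
def lipSub (o : M) : Submodule ℝ (M → ℝ) where
  carrier := {f | f o = 0 ∧ ∃ K : ℝ≥0, LipschitzWith K f}
  zero_mem' := ⟨rfl, 0, LipschitzWith.const 0⟩
  add_mem' := by
    rintro f g ⟨hf, K, hK⟩ ⟨hg, L, hL⟩
    exact ⟨by simp [hf, hg], K + L, hK.add hL⟩
  smul_mem' := by
    rintro c f ⟨hf, K, hK⟩
    exact ⟨by simp [hf], ‖c‖₊ * K, (lipschitzWith_smul c).comp hK⟩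

/-- The space of Lipschitz functions vanishing at the base point. -/
def Lip0 (o : M) : Type _ := lipSub o

instance instAddCommGroupLip0 (o : M) : AddCommGroup (Lip0 o) :=
  inferInstanceAs (AddCommGroup (lipSub o))

instance instModuleLip0 (o : M) : Module ℝ (Lip0 o) :=
  inferInstanceAs (Module ℝ (lipSub o))

/-- The underlying function. -/
def Lip0.toFun {o : M} (f : Lip0 o) : M → ℝ := (show lipSub o from f).1

/-- The Lipschitz constant of a function. -/
noncomputable def lipConst (f : M → ℝ) : ℝ :=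
  ⨆ p : M × M, |f p.1 - f p.2| / dist p.1 p.2

theorem quot_le {f : M → ℝ} {K : ℝ} (hK0 : 0 ≤ K)
    (hK : ∀ x y, |f x - f y| ≤ K * dist x y) (p : M × M) :
    |f p.1 - f p.2| / dist p.1 p.2 ≤ K :=
  div_le_of_le_mul₀ dist_nonneg hK0 (hK _ _)

theorem lipConst_le (o : M) {f : M → ℝ} {K : ℝ} (hK0 : 0 ≤ K)
    (hK : ∀ x y, |f x - f y| ≤ K * dist x y) : lipConst f ≤ K := by
  have : Nonempty (M × M) := ⟨(o, o)⟩
  exact ciSup_le (quot_le hK0 hK)

theorem lipConst_nonneg (f : M → ℝ) : 0 ≤ lipConst f :=
  Real.iSup_nonneg fun _ => div_nonneg (abs_nonneg _) dist_nonneg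

theorem Lip0.abs_sub_le {o : M} (f : Lip0 o) (x y : M) :
    |f.toFun x - f.toFun y| ≤ lipConst f.toFun * dist x y := by
  obtain ⟨K, hK⟩ := (show lipSub o from f).2.2
  have hb : BddAbove (Set.range fun p : M × M => |f.toFun p.1 - f.toFun p.2| / dist p.1 p.2) := by
    refine ⟨K, ?_⟩
    rintro _ ⟨p, rfl⟩
    exact quot_le K.2 (fun x y => hK.dist_le_mul x y) p
  by_cases h : x = y
  · simp [h]
  · have h1 := le_ciSup hb (x, y)
    exact (div_le_iff₀ (dist_pos.2 h)).1 h1

/-- The Lipschitz constant as a group norm on `Lip0`. -/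
noncomputable def lipNorm (o : M) : AddGroupNorm (Lip0 o) where
  toFun f := lipConst f.toFun
  map_zero' := by
    apply le_antisymm _ (lipConst_nonneg _)
    exact lipConst_le o le_rfl fun x y => by
      change |(0 : ℝ) - 0| ≤ _
      simp
  add_le' f g := by
    refine lipConst_le o (add_nonneg (lipConst_nonneg _) (lipConst_nonneg _)) fun x y => ?_
    have h1 := f.abs_sub_le x y
    have h2 := g.abs_sub_le x y
    have h3 := abs_add_le (f.toFun x - f.toFun y) (g.toFun x - g.toFun y)
    change |(f.toFun x + g.toFun x) - (f.toFun y + g.toFun y)| ≤ _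
    rw [show (f.toFun x + g.toFun x) - (f.toFun y + g.toFun y)
      = (f.toFun x - f.toFun y) + (g.toFun x - g.toFun y) by ring]
    linarith
  neg' f := by
    unfold lipConst
    congr 1
    funext p
    change |(-f.toFun p.1) - (-f.toFun p.2)| / _ = _
    rw [show (-f.toFun p.1) - (-f.toFun p.2) = -(f.toFun p.1 - f.toFun p.2) by ring, abs_neg]
  eq_zero_of_map_eq_zero' f hf := by
    apply Subtype.ext
    funext x
    have h1 := f.abs_sub_le x o
    have h2 : f.toFun o = 0 := (show lipSub o from f).2.1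
    rw [hf, h2, zero_mul, sub_zero] at h1
    exact abs_nonpos_iff.1 h1

noncomputable instance instNormedAddCommGroupLip0 (o : M) : NormedAddCommGroup (Lip0 o) :=
  (lipNorm o).toNormedAddCommGroup

noncomputable instance instNormedSpaceLip0 (o : M) : NormedSpace ℝ (Lip0 o) where
  norm_smul_le c f := by
    refine lipConst_le o (mul_nonneg (norm_nonneg _) (lipConst_nonneg _)) fun x y => ?_
    change |c * f.toFun x - c * f.toFun y| ≤ ‖c‖ * lipConst f.toFun * dist x y
    rw [← mul_sub, abs_mul, mul_assoc]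
    exact mul_le_mul_of_nonneg_left (f.abs_sub_le x y) (abs_nonneg _)

/-- Evaluation at a point, as a bounded functional on `Lip0`. -/
noncomputable def delta (o x : M) : StrongDual ℝ (Lip0 o) :=
  LinearMap.mkContinuous
    { toFun := fun f => f.toFun x
      map_add' := fun _ _ => rfl
      map_smul' := fun _ _ => rfl }
    (dist x o) fun f => by
      have h1 := f.abs_sub_le x o
      have h2 : f.toFun o = 0 := (show lipSub o from f).2.1
      rw [h2, sub_zero, mul_comm] at h1
      exact h1

/-- The Lipschitz-free space: the closed linear span of the evaluations in the dual of `Lip0`. -/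
noncomputable def FreeSpace (o : M) : Submodule ℝ (StrongDual ℝ (Lip0 o)) :=
  (Submodule.span ℝ (Set.range (delta o))).topologicalClosure

/-- The bounded approximation property. -/
def HasBAP (X : Type*) [NormedAddCommGroup X] [NormedSpace ℝ X] : Prop :=
  ∃ lam : ℝ, 1 ≤ lam ∧ ∀ C : Set X, IsCompact C → ∀ ε : ℝ, 0 < ε →
    ∃ T : X →L[ℝ] X, FiniteDimensional ℝ (LinearMap.range (T : X →ₗ[ℝ] X)) ∧ ‖T‖ ≤ lam ∧
      ∀ u ∈ C, ‖T u - u‖ < ε

end Vale.Agent.P090
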