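import Mathlib

namespace Vale.Agent.P090

theorem exists_metric {M : Type} (F : Set (M → ℝ)) (h0 : (0 : M → ℝ) ∈ F) (R : M → ℝ)
    (hR : ∀ f ∈ F, ∀ u, |f u| ≤ R u) :
    ∃ I : MetricSpace M, (∀ x y : M, x ≠ y → 1 ≤ I.dist x y) ∧
      (∀ f ∈ F, ∀ u v, |f u - f v| ≤ I.dist u v) ∧
      (∀ u v l, 1 ≤ l → (∀ f ∈ F, |f u - f v| ≤ l) → I.dist u v ≤ l) := by
  classical
  have : Nonempty F := ⟨⟨0, h0⟩⟩
  let d0 : M → M → ℝ := fun u v => ⨆ f : F, |f.1 u - f.1 v|
  have hb : ∀ u v, BddAbove (Set.range fun f : F => |f.1 u - f.1 v|) := by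
    intro u v
    refine ⟨R u + R v, ?_⟩
    rintro _ ⟨f, rfl⟩
    have h1 := hR f.1 f.2 u
    have h2 := hR f.1 f.2 v
    have h3 := abs_sub (f.1 u) (f.1 v)
    linarith
  have hle : ∀ f ∈ F, ∀ u v, |f u - f v| ≤ d0 u v := fun f hf u v =>
    le_ciSup (f := fun f : F => |f.1 u - f.1 v|) (hb u v) ⟨f, hf⟩
  have hge : ∀ u v l, (∀ f ∈ F, |f u - f v| ≤ l) → d0 u v ≤ l := fun u v l h =>
    ciSup_le fun f => h f.1 f.2
  have hnn : ∀ u v, 0 ≤ d0 u v := fun u v => (abs_nonneg _).trans (hle 0 h0 u v)
  let e : M → M → ℝ := fun u v => if u = v then 0 else 1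
  have he : ∀ u v, e u v ≤ 1 := fun u v => by
    simp only [e]; split_ifs <;> norm_num
  have he0 : ∀ u v, 0 ≤ e u v := fun u v => by
    simp only [e]; split_ifs <;> norm_num
  have hsep : ∀ x y : M, x ≠ y → 1 ≤ max (d0 x y) (e x y) := fun x y h =>
    le_max_of_le_right (by simp [e, h])
  let I : MetricSpace M :=
    { dist := fun u v => max (d0 u v) (e u v)
      dist_self := fun u => by
        have : d0 u u = 0 := le_antisymm (hge u u 0 fun f _ => by simp) (hnn u u)
        simp [this, e]
      dist_comm := fun u v => by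
        have h1 : d0 u v = d0 v u := by simp only [d0, abs_sub_comm]
        have h2 : e u v = e v u := by simp only [e, eq_comm]
        rw [h1, h2]
      dist_triangle := fun u v w => by
        apply max_le
        · refine hge u w _ fun f hf => ?_
          have h1 := abs_sub_le (f u) (f v) (f w)
          have h2 := (hle f hf u v).trans (le_max_left _ (e u v))
          have h3 := (hle f hf v w).trans (le_max_left _ (e v w))
          linarith
        · have h2 := le_max_right (d0 u v) (e u v)
          have h3 := le_max_right (d0 v w) (e v w)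
          have h4 : e u w ≤ e u v + e v w := by
            by_cases h : u = v
            · subst h
              have := he0 u u
              linarith
            · have h5 : e u v = 1 := by simp [e, h]
              have := he u w
              have := he0 v w
              linarith
          linarith
      eq_of_dist_eq_zero := fun {u v} h => by
        by_contra hne
        have := hsep u v hne
        linarith }
  refine ⟨I, hsep, fun f hf u v => (hle f hf u v).trans (le_max_left _ _), fun u v l hl h => ?_⟩
  exact max_le (hge u v l h) ((he u v).trans hl)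

end Vale.Agent.P090
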