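import Mathlib

namespace Vale.Agent.P090

open Finset

section Acts
variable (R : Type*) [CommRing R]

/-- The shear `(a, b) ↦ (a + b, b)`. -/
def shT : Equiv.Perm (R × R) where
  toFun z := (z.1 + z.2, z.2)
  invFun z := (z.1 - z.2, z.2)
  left_inv z := by simp
  right_inv z := by simp

/-- The shear `(a, b) ↦ (a, a + b)`. -/
def shS : Equiv.Perm (R × R) where
  toFun z := (z.1, z.1 + z.2)
  invFun z := (z.1, z.2 - z.1)
  left_inv z := by simp
  right_inv z := by simp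

/-- Translation in the first coordinate. -/
def tr1 : Equiv.Perm (R × R) where
  toFun z := (z.1 + 1, z.2)
  invFun z := (z.1 - 1, z.2)
  left_inv z := by simp
  right_inv z := by simp

/-- Translation in the second coordinate. -/
def tr2 : Equiv.Perm (R × R) where
  toFun z := (z.1, z.2 + 1)
  invFun z := (z.1, z.2 - 1)
  left_inv z := by simp
  right_inv z := by simp

/-- The four Margulis generators. -/
def marg : Fin 4 → Equiv.Perm (R × R) := ![shT R, shS R, tr1 R, tr2 R]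

end Acts

/-- Clamp to the interval from -1 to 2. -/
noncomputable def clampf (x : ℝ) : ℝ := max (-1) (min x 2)

theorem clampf_abs (x : ℝ) : |clampf x| ≤ 2 := by
  unfold clampf
  rw [abs_le]
  constructor
  · exact le_max_of_le_left (by norm_num)
  · exact max_le (by norm_num) (min_le_right _ _)

theorem clampf_ge (x : ℝ) : -1 ≤ clampf x := le_max_left _ _

theorem clampf_le (x : ℝ) : clampf x ≤ 2 := max_le (by norm_num) (min_le_right _ _)

theorem clampf_mono {x y : ℝ} (h : x ≤ y) : clampf x ≤ clampf y :=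
  max_le_max le_rfl (min_le_min h le_rfl)

theorem clampf_eq {x : ℝ} (h1 : -1 ≤ x) (h2 : x ≤ 2) : clampf x = x := by
  unfold clampf
  rw [min_eq_left h2, max_eq_right h1]

theorem pot_aux (a b : ℝ) : 0 ≤ clampf ((a + b) / b) - clampf (a / b) := by
  by_cases hb : b = 0
  · simp [hb]
  · rw [add_div, div_self hb, sub_nonneg]
    exact clampf_mono (by linarith)

theorem pot_aux2 (a b : ℝ) (hb : b ≠ 0) (h : |a| ≤ |b|) :
    clampf ((a + b) / b) - clampf (a / b) = 1 := by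
  have h1 : |a / b| ≤ 1 := by
    rw [abs_div]
    exact (div_le_one (abs_pos.2 hb)).2 h
  rw [abs_le] at h1
  rw [add_div, div_self hb, clampf_eq (by linarith [h1.1]) (by linarith [h1.2]),
    clampf_eq h1.1 (by linarith [h1.2])]
  ring

/-- First potential. -/
noncomputable def g1 (z : ℤ × ℤ) : ℝ := clampf ((z.1 : ℝ) / z.2)

/-- Second potential. -/
noncomputable def g2 (z : ℤ × ℤ) : ℝ := clampf ((z.2 : ℝ) / z.1)

theorem pot (z : ℤ × ℤ) (hz : z ≠ 0) :
    1 ≤ g1 (shT ℤ z) - g1 z + (g2 (shS ℤ z) - g2 z) := by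
  obtain ⟨a, b⟩ := z
  have e1 : g1 (shT ℤ (a, b)) = clampf (((a : ℝ) + b) / b) := by simp [g1, shT]
  have e2 : g2 (shS ℤ (a, b)) = clampf (((b : ℝ) + a) / a) := by simp [g2, shS, add_comm]
  rw [e1, e2]
  simp only [g1, g2]
  have h1 := pot_aux a b
  have h2 := pot_aux b a
  rcases le_total |(a : ℝ)| |(b : ℝ)| with h | h
  · have hb : (b : ℝ) ≠ 0 := by
      intro hb
      rw [hb, abs_zero, abs_nonpos_iff] at h
      apply hz
      have ha' : a = 0 := by exact_mod_cast h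
      have hb' : b = 0 := by exact_mod_cast hb
      simp [ha', hb']
    have := pot_aux2 a b hb h
    linarith
  · have ha : (a : ℝ) ≠ 0 := by
      intro ha
      rw [ha, abs_zero, abs_nonpos_iff] at h
      apply hz
      have ha' : a = 0 := by exact_mod_cast ha
      have hb' : b = 0 := by exact_mod_cast h
      simp [ha', hb']
    have := pot_aux2 b a ha h
    linarith

variable {n : ℕ} [NeZero n]

theorem char_far (a : ZMod n) (h : (n : ℤ) ≤ 4 * |a.valMinAbs|) :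
    2 ≤ Complex.normSq (1 - ZMod.stdAddChar a) := by
  have hn : (0 : ℝ) < n := by exact_mod_cast Nat.pos_of_ne_zero (NeZero.ne n)
  set j := a.valMinAbs with hj
  have h2 : |j| * 2 ≤ n := by
    have := ZMod.valMinAbs_mem_Ioc a
    rw [← hj] at this
    rcases abs_cases j with h3 | h3 <;> rw [h3.1] <;> linarith [this.1, this.2]
  have e : ZMod.stdAddChar a = Complex.exp (((2 * Real.pi * j / n : ℝ) : ℂ) * Complex.I) := by
    rw [← ZMod.coe_valMinAbs a, ZMod.stdAddChar_coe, ← hj]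
    congr 1
    push_cast
    ring
  have hc : Real.cos (2 * Real.pi * j / n) ≤ 0 := by
    rw [← Real.cos_abs]
    have e2 : |2 * Real.pi * j / n| = 2 * Real.pi * (|j| : ℤ) / n := by
      rw [abs_div, abs_mul, abs_of_pos hn, abs_of_pos (by positivity : 0 < 2 * Real.pi)]
      push_cast
      rfl
    have h' : (n : ℝ) ≤ 4 * (|j| : ℤ) := by exact_mod_cast h
    have h2' : ((|j| : ℤ) : ℝ) * 2 ≤ n := by exact_mod_cast h2
    have hp := Real.pi_pos
    rw [e2]
    apply Real.cos_nonpos_of_pi_div_two_le_of_le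
    · rw [le_div_iff₀ hn]; nlinarith
    · rw [div_le_iff₀ hn]; nlinarith
  rw [e, Complex.normSq_apply]
  simp only [Complex.sub_re, Complex.one_re, Complex.exp_ofReal_mul_I_re, Complex.sub_im,
    Complex.one_im, Complex.exp_ofReal_mul_I_im]
  have := Real.sin_sq_add_cos_sq (2 * Real.pi * j / n)
  nlinarith

/-- Lift of a point of the discrete torus. -/
def lft (z : ZMod n × ZMod n) : ℤ × ℤ := (z.1.valMinAbs, z.2.valMinAbs)

theorem pot_mod (z : ZMod n × ZMod n) (hz : z ≠ 0) :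
    1 ≤ g1 (lft (shT _ z)) - g1 (lft z) + (g2 (lft (shS _ z)) - g2 (lft z)) +
      7 / 2 * (Complex.normSq (1 - ZMod.stdAddChar z.1) +
        Complex.normSq (1 - ZMod.stdAddChar z.2)) := by
  have p1 := Complex.normSq_nonneg (1 - ZMod.stdAddChar z.1)
  have p2 := Complex.normSq_nonneg (1 - ZMod.stdAddChar z.2)
  have b1 : -3 ≤ g1 (lft (shT _ z)) - g1 (lft z) := by
    unfold g1
    linarith [clampf_ge (((lft (shT _ z)).1 : ℝ) / (lft (shT _ z)).2),
      clampf_le (((lft z).1 : ℝ) / (lft z).2)]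
  have b2 : -3 ≤ g2 (lft (shS _ z)) - g2 (lft z) := by
    unfold g2
    linarith [clampf_ge (((lft (shS _ z)).2 : ℝ) / (lft (shS _ z)).1),
      clampf_le (((lft z).2 : ℝ) / (lft z).1)]
  by_cases h1 : (n : ℤ) ≤ 4 * |z.1.valMinAbs|
  · have := char_far z.1 h1
    linarith
  by_cases h2 : (n : ℤ) ≤ 4 * |z.2.valMinAbs|
  · have := char_far z.2 h2
    linarith
  have hs : (z.1 + z.2).valMinAbs = z.1.valMinAbs + z.2.valMinAbs := by
    rw [ZMod.valMinAbs_spec]
    refine ⟨by simp, ?_, ?_⟩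
    · linarith [neg_abs_le z.1.valMinAbs, neg_abs_le z.2.valMinAbs]
    · linarith [le_abs_self z.1.valMinAbs, le_abs_self z.2.valMinAbs]
  have e1 : lft (shT _ z) = shT ℤ (lft z) := by simp [lft, shT, hs]
  have e2 : lft (shS _ z) = shS ℤ (lft z) := by simp [lft, shS, hs]
  have hz' : lft z ≠ 0 := by
    intro h
    apply hz
    simp only [lft, Prod.mk_eq_zero, ZMod.valMinAbs_eq_zero] at h
    exact Prod.ext h.1 h.2
  have := pot _ hz'
  rw [e1, e2]
  linarith

/-- Character pairing. -/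
noncomputable def chi (ξ x : ZMod n × ZMod n) : ℂ := ZMod.stdAddChar (ξ.1 * x.1 + ξ.2 * x.2)

/-- Fourier transform. -/
noncomputable def ft (f : ZMod n × ZMod n → ℝ) (ξ : ZMod n × ZMod n) : ℂ :=
  ∑ x, (f x : ℂ) * chi ξ x

theorem chi_orth (x y : ZMod n × ZMod n) :
    ∑ ξ, chi ξ x * (starRingEnd ℂ) (chi ξ y) = if x = y then ((n : ℂ)) ^ 2 else 0 := by
  have h : ∀ ξ : ZMod n × ZMod n, chi ξ x * (starRingEnd ℂ) (chi ξ y) =
      ZMod.stdAddChar (ξ.1 * (x.1 - y.1)) * ZMod.stdAddChar (ξ.2 * (x.2 - y.2)) := by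
    intro ξ
    unfold chi
    rw [← AddChar.map_neg_eq_conj, ← AddChar.map_add_eq_mul, ← AddChar.map_add_eq_mul]
    congr 1
    ring
  simp_rw [h]
  rw [Fintype.sum_prod_type]
  dsimp only
  rw [← Finset.sum_mul_sum,
    AddChar.sum_mulShift _ (ZMod.isPrimitive_stdAddChar n),
    AddChar.sum_mulShift _ (ZMod.isPrimitive_stdAddChar n)]
  simp only [sub_eq_zero, ZMod.card, Prod.ext_iff]
  by_cases h1 : x.1 = y.1 <;> by_cases h2 : x.2 = y.2 <;> simp [h1, h2, sq]

theorem parseval (f : ZMod n × ZMod n → ℝ) :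
    ∑ ξ, Complex.normSq (ft f ξ) = (n : ℝ) ^ 2 * ∑ x, f x ^ 2 := by
  apply Complex.ofReal_injective
  push_cast
  simp_rw [← Complex.mul_conj]
  have h : ∀ ξ, ft f ξ * (starRingEnd ℂ) (ft f ξ) =
      ∑ x, ∑ y, (f x : ℂ) * f y * (chi ξ x * (starRingEnd ℂ) (chi ξ y)) := by
    intro ξ
    unfold ft
    rw [map_sum, Finset.sum_mul_sum]
    refine Finset.sum_congr rfl fun x _ => Finset.sum_congr rfl fun y _ => ?_
    rw [map_mul, Complex.conj_ofReal]
    ring
  simp_rw [h]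
  rw [Finset.sum_comm, Finset.mul_sum]
  refine Finset.sum_congr rfl fun x _ => ?_
  rw [Finset.sum_comm]
  simp_rw [← Finset.mul_sum, chi_orth]
  simp [sq, mul_comm]

theorem ft_sub (f g : ZMod n × ZMod n → ℝ) (ξ : ZMod n × ZMod n) :
    ft (fun x => f x - g x) ξ = ft f ξ - ft g ξ := by
  unfold ft
  rw [← Finset.sum_sub_distrib]
  refine Finset.sum_congr rfl fun x _ => ?_
  push_cast
  ring

theorem ft_comp (f : ZMod n × ZMod n → ℝ) (e : Equiv.Perm (ZMod n × ZMod n))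
    (ξ ξ' : ZMod n × ZMod n) (c : ℂ) (h : ∀ x, chi ξ' x * c = chi ξ (e x)) :
    ft (fun x => f (e x)) ξ' * c = ft f ξ := by
  unfold ft
  rw [Finset.sum_mul, ← Equiv.sum_comp e (fun x => (f x : ℂ) * chi ξ x)]
  refine Finset.sum_congr rfl fun x _ => ?_
  rw [mul_assoc, h]

theorem normSq_diff (A B : ℂ) :
    |Complex.normSq A - Complex.normSq B| ≤
      8 * Complex.normSq (B - A) + (Complex.normSq A + Complex.normSq B) / 16 := by
  simp only [Complex.normSq_apply, Complex.sub_re, Complex.sub_im]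
  rw [abs_le]
  constructor
  · nlinarith [sq_nonneg (16 * (B.re - A.re) - (A.re + B.re)),
      sq_nonneg (16 * (B.im - A.im) - (A.im + B.im)), sq_nonneg (A.re - B.re),
      sq_nonneg (A.im - B.im)]
  · nlinarith [sq_nonneg (16 * (B.re - A.re) + (A.re + B.re)),
      sq_nonneg (16 * (B.im - A.im) + (A.im + B.im)), sq_nonneg (A.re - B.re),
      sq_nonneg (A.im - B.im)]

theorem lin_part (f : ZMod n × ZMod n → ℝ) (e e' : Equiv.Perm (ZMod n × ZMod n))
    (h : ∀ ξ x, chi (e' ξ) x = chi ξ (e x)) (φ : ZMod n × ZMod n → ℝ) (hφ : ∀ z, |φ z| ≤ 2) :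
    ∑ ξ, Complex.normSq (ft f ξ) * (φ (e' ξ) - φ ξ) ≤
      (n : ℝ) ^ 2 * (16 * ∑ x, (f (e x) - f x) ^ 2 + (∑ x, f x ^ 2) / 4) := by
  have h1 : ∑ ξ, Complex.normSq (ft f ξ) * (φ (e' ξ) - φ ξ) =
      ∑ ξ, (Complex.normSq (ft f ξ) - Complex.normSq (ft f (e' ξ))) * φ (e' ξ) := by
    simp_rw [mul_sub, sub_mul, Finset.sum_sub_distrib]
    rw [Equiv.sum_comp e' (fun ξ => Complex.normSq (ft f ξ) * φ ξ)]
  have h2 : ∀ ξ, (Complex.normSq (ft f ξ) - Complex.normSq (ft f (e' ξ))) * φ (e' ξ) ≤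
      16 * Complex.normSq (ft (fun x => f (e x) - f x) (e' ξ)) +
        (Complex.normSq (ft f ξ) + Complex.normSq (ft f (e' ξ))) / 8 := by
    intro ξ
    have h3 := normSq_diff (ft f ξ) (ft f (e' ξ))
    have h4 : ft (fun x => f (e x)) (e' ξ) = ft f ξ := by
      have := ft_comp f e ξ (e' ξ) 1 (fun x => by rw [mul_one, h])
      rwa [mul_one] at this
    rw [ft_sub (fun x => f (e x)) f, h4, ← Complex.normSq_neg (ft f ξ - _), neg_sub]
    have h5 := le_abs_self ((Complex.normSq (ft f ξ) - Complex.normSq (ft f (e' ξ))) * φ (e' ξ))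
    rw [abs_mul] at h5
    have h6 := mul_le_mul_of_nonneg_left (hφ (e' ξ))
      (abs_nonneg (Complex.normSq (ft f ξ) - Complex.normSq (ft f (e' ξ))))
    linarith
  rw [h1]
  refine (Finset.sum_le_sum fun ξ _ => h2 ξ).trans (le_of_eq ?_)
  rw [Finset.sum_add_distrib, ← Finset.mul_sum, ← Finset.sum_div, Finset.sum_add_distrib,
    Equiv.sum_comp e' (fun ξ => Complex.normSq (ft f ξ)),
    Equiv.sum_comp e' (fun ξ => Complex.normSq (ft (fun x => f (e x) - f x) ξ)),
    parseval, parseval]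
  ring

theorem tr_part (f : ZMod n × ZMod n → ℝ) (e : Equiv.Perm (ZMod n × ZMod n))
    (a : ZMod n × ZMod n → ZMod n)
    (h : ∀ ξ x, chi ξ x * ZMod.stdAddChar (a ξ) = chi ξ (e x)) :
    ∑ ξ, Complex.normSq (ft f ξ) * Complex.normSq (1 - ZMod.stdAddChar (a ξ)) =
      (n : ℝ) ^ 2 * ∑ x, (f (e x) - f x) ^ 2 := by
  rw [← parseval]
  refine Finset.sum_congr rfl fun ξ _ => ?_
  have h1 := ft_comp f e ξ ξ _ (h ξ)
  have h2 : Complex.normSq (ZMod.stdAddChar (a ξ)) = 1 := by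
    rw [ZMod.stdAddChar_apply]
    exact Circle.normSq_coe _
  rw [← Complex.normSq_mul, ft_sub (fun x => f (e x)) f,
    ← mul_one (Complex.normSq (ft (fun x => f (e x)) ξ - ft f ξ)), ← h2, ← Complex.normSq_mul,
    sub_mul, h1]
  congr 1
  ring

theorem poincare (f : ZMod n × ZMod n → ℝ) (hf : ∑ x, f x = 0) :
    ∑ x, f x ^ 2 ≤ 32 * ∑ k : Fin 4, ∑ x, (f (marg _ k x) - f x) ^ 2 := by
  have hn : (0 : ℝ) < n := by exact_mod_cast Nat.pos_of_ne_zero (NeZero.ne n)
  have h0 : ft f 0 = 0 := by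
    unfold ft chi
    simp only [Prod.fst_zero, zero_mul, Prod.snd_zero, add_zero, AddChar.map_zero_eq_one, mul_one]
    exact_mod_cast hf
  have l1 := lin_part f (shS _) (shT _) (fun ξ x => by
    unfold chi; congr 1; simp [shS, shT]; ring) (fun z => g1 (lft z)) (fun z => clampf_abs _)
  have l2 := lin_part f (shT _) (shS _) (fun ξ x => by
    unfold chi; congr 1; simp [shS, shT]; ring) (fun z => g2 (lft z)) (fun z => clampf_abs _)
  have l3 := tr_part f (tr1 _) (fun ξ => ξ.1) (fun ξ x => by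
    unfold chi; rw [← AddChar.map_add_eq_mul]; congr 1; simp [tr1]; ring)
  have l4 := tr_part f (tr2 _) (fun ξ => ξ.2) (fun ξ x => by
    unfold chi; rw [← AddChar.map_add_eq_mul]; congr 1; simp [tr2]; ring)
  have main : ∑ ξ, Complex.normSq (ft f ξ) ≤ ∑ ξ, (
      Complex.normSq (ft f ξ) * (g1 (lft (shT _ ξ)) - g1 (lft ξ)) +
      Complex.normSq (ft f ξ) * (g2 (lft (shS _ ξ)) - g2 (lft ξ)) +
      7 / 2 * (Complex.normSq (ft f ξ) * Complex.normSq (1 - ZMod.stdAddChar ξ.1) +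
        Complex.normSq (ft f ξ) * Complex.normSq (1 - ZMod.stdAddChar ξ.2))) := by
    refine Finset.sum_le_sum fun ξ _ => ?_
    by_cases hξ : ξ = 0
    · simp [hξ, h0]
    · have := mul_le_mul_of_nonneg_left (pot_mod ξ hξ) (Complex.normSq_nonneg (ft f ξ))
      linarith
  rw [Finset.sum_add_distrib, Finset.sum_add_distrib, ← Finset.mul_sum, Finset.sum_add_distrib,
    l3, l4, parseval] at main
  simp only [Fin.sum_univ_four, marg, Matrix.cons_val_zero, Matrix.cons_val_one,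
    Matrix.cons_val]
  have q3 : 0 ≤ ∑ x, (f (tr1 _ x) - f x) ^ 2 := Finset.sum_nonneg fun _ _ => sq_nonneg _
  have q4 : 0 ≤ ∑ x, (f (tr2 _ x) - f x) ^ 2 := Finset.sum_nonneg fun _ _ => sq_nonneg _
  have hn2 : (0 : ℝ) < (n : ℝ) ^ 2 := by positivity
  refine le_of_mul_le_mul_left ?_ hn2
  nlinarith

theorem l1gap (κ : ZMod n × ZMod n → ℝ) (hκ : ∀ x, 0 ≤ κ x) (Mis : Finset (ZMod n × ZMod n))
    (hM : (n : ℝ) ^ 2 ≤ 6 * Mis.card) :
    ∑ x, κ x ≤ 24 * ∑ x ∈ Mis, κ x + 832 * ∑ k : Fin 4, ∑ x, |κ (marg _ k x) - κ x| := by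
  have hn : (0 : ℝ) < n := by exact_mod_cast Nat.pos_of_ne_zero (NeZero.ne n)
  let f : ZMod n × ZMod n → ℝ := fun x => Real.sqrt (κ x)
  have hf2 : ∀ x, f x ^ 2 = κ x := fun x => Real.sq_sqrt (hκ x)
  let c : ℝ := (∑ x, f x) / (n : ℝ) ^ 2
  have hcard : ((Finset.univ : Finset (ZMod n × ZMod n)).card : ℝ) = (n : ℝ) ^ 2 := by
    simp [ZMod.card, sq]
  have hp := poincare (fun x => f x - c) (by
    rw [Finset.sum_sub_distrib, Finset.sum_const, nsmul_eq_mul, hcard]
    simp only [c]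
    field_simp
    ring)
  have h1 : ∑ k : Fin 4, ∑ x, ((f (marg _ k x) - c) - (f x - c)) ^ 2 ≤
      ∑ k : Fin 4, ∑ x, |κ (marg _ k x) - κ x| := by
    refine Finset.sum_le_sum fun k _ => Finset.sum_le_sum fun x _ => ?_
    rw [← hf2, ← hf2]
    have a1 : 0 ≤ f (marg _ k x) := Real.sqrt_nonneg _
    have a2 : 0 ≤ f x := Real.sqrt_nonneg _
    rcases le_total (f x) (f (marg _ k x)) with h | h
    · refine le_trans ?_ (le_abs_self _)
      nlinarith
    · refine le_trans ?_ (neg_le_abs _)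
      nlinarith
  have h2 : ∑ x, κ x ≤ 2 * ∑ x, (f x - c) ^ 2 + 2 * ((n : ℝ) ^ 2 * c ^ 2) := by
    rw [← hcard, ← nsmul_eq_mul, ← Finset.sum_const, Finset.mul_sum, Finset.mul_sum,
      ← Finset.sum_add_distrib]
    refine Finset.sum_le_sum fun x _ => ?_
    rw [← hf2]
    nlinarith [sq_nonneg (f x - 2 * c)]
  have h3 : (Mis.card : ℝ) * c ^ 2 ≤ 2 * ∑ x ∈ Mis, κ x + 2 * ∑ x ∈ Mis, (f x - c) ^ 2 := by
    rw [← nsmul_eq_mul, ← Finset.sum_const, Finset.mul_sum, Finset.mul_sum,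
      ← Finset.sum_add_distrib]
    refine Finset.sum_le_sum fun x _ => ?_
    rw [← hf2]
    nlinarith [sq_nonneg (2 * f x - c)]
  have h4 : ∑ x ∈ Mis, (f x - c) ^ 2 ≤ ∑ x, (f x - c) ^ 2 :=
    Finset.sum_le_sum_of_subset_of_nonneg (Finset.subset_univ _) fun _ _ _ => sq_nonneg _
  have h5 := mul_le_mul_of_nonneg_right hM (sq_nonneg c)
  linarith

end Vale.Agent.P090
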