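import Vale.Agent.P090.Rel

namespace Vale.Agent.P090

open Finset

/-- The cube. -/
abbrev Cube (m : ℕ) : Type := Fin (m * m) → Bool

/-- Flip a coordinate. -/
def flp {m : ℕ} (i : Fin (m * m)) (y : Cube m) : Cube m := Function.update y i (!y i)

/-- Sign of a Boolean. -/
def sg (b : Bool) : ℝ := if b then 1 else -1

theorem sg_abs (b : Bool) : |sg b| = 1 := by cases b <;> simp [sg]

theorem sg_mul_self (b : Bool) : sg b * sg b = 1 := by cases b <;> simp [sg]

theorem sg_not (b : Bool) : sg (!b) = -sg b := by cases b <;> simp [sg]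

/-- Inner product of sign vectors. -/
def ip {m : ℕ} (x y : Cube m) : ℝ := ∑ i, sg (x i) * sg (y i)

theorem ip_abs {m : ℕ} (x y : Cube m) : |ip x y| ≤ (m : ℝ) * m := by
  refine (Finset.abs_sum_le_sum_abs _ _).trans (le_of_eq ?_)
  simp [abs_mul, sg_abs]

theorem ip_self {m : ℕ} (x : Cube m) : ip x x = (m : ℝ) * m := by
  simp [ip, sg_mul_self]

theorem ip_flp {m : ℕ} (x y : Cube m) (i : Fin (m * m)) : |ip x (flp i y) - ip x y| ≤ 2 := by
  unfold ip
  rw [← Finset.sum_sub_distrib, Finset.sum_eq_single i]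
  · simp only [flp, Function.update_self, sg_not]
    rw [show sg (x i) * -sg (y i) - sg (x i) * sg (y i) = -2 * (sg (x i) * sg (y i)) by ring]
    simp [abs_mul, sg_abs]
  · intro j _ hj
    simp [flp, Function.update_of_ne hj]
  · simp

theorem flp_flp {m : ℕ} (i : Fin (m * m)) (y : Cube m) : flp i (flp i y) = y := by
  simp [flp]

theorem sum_sg {m : ℕ} (i : Fin (m * m)) (φ : Cube m → ℝ) (c : ℝ)
    (h : ∀ y, |φ (flp i y) - φ y| ≤ c * 2) :
    ∑ x, sg (x i) * φ x ≤ (Fintype.card (Cube m) : ℝ) * c := by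
  let e : Equiv.Perm (Cube m) := Function.Involutive.toPerm (flp i) (flp_flp i)
  have h1 : ∑ x, sg (x i) * φ x = ∑ x : Cube m, -(sg (x i) * φ (flp i x)) := by
    rw [← Equiv.sum_comp e]
    refine Finset.sum_congr rfl fun x _ => ?_
    change sg (flp i x i) * φ (flp i x) = _
    have h0 : flp i x i = !x i := by simp [flp]
    rw [h0, sg_not, neg_mul]
  have h2 : ∑ x, sg (x i) * φ x + ∑ x : Cube m, -(sg (x i) * φ (flp i x)) ≤
      (Fintype.card (Cube m) : ℝ) * (c * 2) := by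
    rw [← Finset.sum_add_distrib, ← nsmul_eq_mul, ← Finset.card_univ, ← Finset.sum_const]
    refine Finset.sum_le_sum fun x _ => ?_
    have h3 := neg_le_abs (sg (x i) * (φ (flp i x) - φ x))
    rw [abs_mul, sg_abs, one_mul] at h3
    linarith [h x]
  linarith

/-- A level of the space. -/
abbrev Lev (H : Type) (m : ℕ) : Type := (Cube m × H) ⊕ (Cube m × VV × H)

variable {H : Type} [Group H]

/-- Admissible functions on a level. -/
def Good (π : Gen → H) (m : ℕ) (g : Lev H m → ℝ) : Prop :=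
  (∀ x, |g x| ≤ (m : ℝ) * m) ∧
  (∀ y η u, |g (Sum.inr (y, η, u)) - g (Sum.inl (y, u))| ≤ m) ∧
  (∀ i y η u, |g (Sum.inr (flp i y, η, u)) - g (Sum.inr (y, η, u))| ≤ 2) ∧
  (∀ s y η u, |g (Sum.inr (y, rho s η, π s * u)) - g (Sum.inr (y, η, u))| ≤ 2)

theorem good_small (π : Gen → H) (m : ℕ) (hm : 1 ≤ m) (g : Lev H m → ℝ)
    (h0 : ∀ a, g (Sum.inl a) = 0) (h1 : ∀ a, |g (Sum.inr a)| ≤ 1) : Good π m g := by
  have hm' : (1 : ℝ) ≤ m := by exact_mod_cast hm
  have h2 : ∀ a b, |g (Sum.inr a) - g (Sum.inr b)| ≤ 2 := fun a b => by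
    linarith [abs_sub (g (Sum.inr a)) (g (Sum.inr b)), h1 a, h1 b]
  refine ⟨?_, fun y η u => ?_, fun i y η u => h2 _ _, fun s y η u => h2 _ _⟩
  · rintro (a | a)
    · rw [h0, abs_zero]; positivity
    · nlinarith [h1 a]
  · rw [h0, sub_zero]
    exact (h1 _).trans hm'

/-- The main test functions. -/
def Gs {m : ℕ} (w : H → ℝ) (σ : H → VV → VV) (x : Cube m) (t : H) :
    (VV → ℝ) →ₗ[ℝ] (Lev H m → ℝ) where
  toFun ε := Sum.elim (fun _ => 0)
    (fun a => ip x a.1 * (w (a.2.2 * t⁻¹) * ε (σ (a.2.2 * t⁻¹) a.2.1)))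
  map_add' ε ε' := by
    funext a
    rcases a with a | a
    · simp
    · simp only [Sum.elim_inr, Pi.add_apply]; ring
  map_smul' c ε := by
    funext a
    rcases a with a | a
    · simp
    · simp only [Sum.elim_inr, Pi.smul_apply, smul_eq_mul, RingHom.id_apply]; ring

theorem Gs_inl {m : ℕ} (w : H → ℝ) (σ : H → VV → VV) (x : Cube m) (t : H) (ε : VV → ℝ)
    (a : Cube m × H) : Gs w σ x t ε (Sum.inl a) = 0 := rfl

theorem Gs_inr {m : ℕ} (w : H → ℝ) (σ : H → VV → VV) (x : Cube m) (t : H) (ε : VV → ℝ)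
    (y : Cube m) (η : VV) (u : H) : Gs w σ x t ε (Sum.inr (y, η, u)) =
      ip x y * (w (u * t⁻¹) * ε (σ (u * t⁻¹) η)) := rfl

/-- Test functions living on both layers. -/
def Ks {m : ℕ} (w : H → ℝ) (x : Cube m) (t : H) : Lev H m → ℝ :=
  Sum.elim (fun a => ip x a.1 * w (a.2 * t⁻¹)) (fun a => ip x a.1 * w (a.2.2 * t⁻¹))

/-- Test functions living on the finite layer. -/
def Fs {m : ℕ} (w : H → ℝ) (i : Fin (m * m)) (t : H) : Lev H m → ℝ :=
  Sum.elim (fun a => (m : ℝ) * (sg (a.1 i) * w (a.2 * t⁻¹))) (fun _ => 0)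

theorem abs_mul_le' {a b A B : ℝ} (ha : |a| ≤ A) (hb : |b| ≤ B) : |a * b| ≤ A * B := by
  rw [abs_mul]
  exact mul_le_mul ha hb (abs_nonneg _) ((abs_nonneg _).trans ha)

theorem level [Fintype H] (π : Gen → H) (m : ℕ) (w : H → ℝ) (σ : H → VV → VV)
    (hw1 : w 1 = 1) (hw2 : ∀ k, 0 ≤ w k ∧ w k ≤ 1)
    (hw3 : ∀ s k η (ε : VV → ℝ), (∀ v, |ε v| ≤ 1) →
      |w (π s * k) * ε (σ (π s * k) (rho s η)) - w k * ε (σ k η)| ≤ 1 / ((m * m : ℕ) : ℝ))
    (hw4 : ∀ s k η (ε : VV → ℝ), (∀ v, |ε v| ≤ 1) →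
      |w (k * (π s)⁻¹) * ε ((rho s)⁻¹ (σ (k * (π s)⁻¹) η)) - w k * ε (σ k η)| ≤
        1 / ((m * m : ℕ) : ℝ))
    (Q : Lev H m → (Lev H m → ℝ) →ₗ[ℝ] ℝ) (B : Finset (Lev H m)) (Λ : ℝ) (hΛ : 1 ≤ Λ)
    (hloc : ∀ a (g : Lev H m → ℝ), (∀ b ∈ B, g b = 0) → Q a g = 0)
    (hvert : ∀ g, Good π m g → ∀ y η u,
      |Q (Sum.inr (y, η, u)) g - Q (Sum.inl (y, u)) g| ≤ Λ * m)
    (hflip : ∀ g, Good π m g → ∀ i y η u,
      |Q (Sum.inr (flp i y, η, u)) g - Q (Sum.inr (y, η, u)) g| ≤ Λ * 2)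
    (hX : ∀ g, Good π m g → ∀ s y η u,
      |Q (Sum.inr (y, rho s η, π s * u)) g - Q (Sum.inr (y, η, u)) g| ≤ Λ * 2)
    (hfix : ∀ g, Good π m g → ∀ a, |Q (Sum.inl a) g - g (Sum.inl a)| ≤ 1)
    (hbig : 40000 * Λ ≤ m) : False := by
  classical
  have hm : (1 : ℝ) ≤ m := by linarith
  have hm1 : 1 ≤ m := by exact_mod_cast hm
  have hm0 : (0 : ℝ) < m := by linarith
  have hmm : (0 : ℝ) < (m : ℝ) * m := by positivity
  rw [Nat.cast_mul] at hw3 hw4
  have hwa : ∀ k, |w k| ≤ 1 := fun k => by rw [abs_of_nonneg (hw2 k).1]; exact (hw2 k).2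
  have hth : ∀ (ε : VV → ℝ), (∀ v, |ε v| ≤ 1) → ∀ k v, |w k * ε v| ≤ 1 := fun ε hε k v => by
    simpa using abs_mul_le' (hwa k) (hε v)
  have gK : ∀ x t, Good π m (Ks w x t) := by
    intro x t
    refine ⟨?_, fun y η u => ?_, fun i y η u => ?_, fun s y η u => ?_⟩
    · rintro (a | a) <;> simpa [Ks] using abs_mul_le' (ip_abs x a.1) (hwa _)
    · simp [Ks]
    · simp only [Ks, Sum.elim_inr]
      rw [← sub_mul]
      simpa using abs_mul_le' (ip_flp x y i) (hwa _)
    · simp only [Ks, Sum.elim_inr]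
      rw [← mul_sub, mul_assoc]
      have h1 := hw3 s (u * t⁻¹) η (fun _ => 1) (by simp)
      simp only [mul_one] at h1
      have h2 := abs_mul_le' (ip_abs x y) h1
      rw [mul_one_div_cancel hmm.ne'] at h2
      linarith
  have gF : ∀ i t, Good π m (Fs w i t) := by
    intro i t
    have h1 : ∀ a : Cube m × H, |(m : ℝ) * (sg (a.1 i) * w (a.2 * t⁻¹))| ≤ m := fun a => by
      have := abs_mul_le' (abs_of_pos hm0).le (abs_mul_le' (sg_abs (a.1 i)).le (hwa (a.2 * t⁻¹)))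
      simpa using this
    refine ⟨?_, fun y η u => ?_, fun i y η u => ?_, fun s y η u => ?_⟩
    · rintro (a | a)
      · have := h1 a
        simp only [Fs, Sum.elim_inl]
        nlinarith
      · simp only [Fs, Sum.elim_inr, abs_zero]
        positivity
    · simp only [Fs, Sum.elim_inr, Sum.elim_inl, zero_sub, abs_neg]
      exact h1 (y, u)
    · simp [Fs]
    · simp [Fs]
  have gG : ∀ x t (ε : VV → ℝ), (∀ v, |ε v| ≤ 1) → Good π m ((1 / (m : ℝ)) • Gs w σ x t ε) := by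
    intro x t ε hε
    have hinv : |1 / (m : ℝ)| ≤ 1 / m := (abs_of_pos (by positivity)).le
    have hinv1 : 1 / (m : ℝ) ≤ 1 := (div_le_one hm0).2 hm
    have h1 : ∀ y η u, |((1 / (m : ℝ)) • Gs w σ x t ε) (Sum.inr (y, η, u))| ≤ m := by
      intro y η u
      rw [Pi.smul_apply, Gs_inr, smul_eq_mul]
      refine (abs_mul_le' hinv (abs_mul_le' (ip_abs x y) (hth ε hε _ _))).trans (le_of_eq ?_)
      field_simp
    refine ⟨?_, fun y η u => ?_, fun i y η u => ?_, fun s y η u => ?_⟩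
    · rintro (a | ⟨y, η, u⟩)
      · simp only [Pi.smul_apply, Gs_inl, smul_zero, abs_zero]
        positivity
      · have := h1 y η u
        nlinarith
    · simp only [Pi.smul_apply (1 / (m : ℝ)) _ (Sum.inl _), Gs_inl, smul_zero, sub_zero]
      exact h1 y η u
    · simp only [Pi.smul_apply, Gs_inr, smul_eq_mul]
      rw [← mul_sub, ← sub_mul]
      have := abs_mul_le' hinv (abs_mul_le' (ip_flp x y i) (hth ε hε (u * t⁻¹) (σ (u * t⁻¹) η)))
      linarith
    · simp only [Pi.smul_apply, Gs_inr, smul_eq_mul]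
      rw [← mul_sub, ← mul_sub, mul_assoc (π s)]
      have := abs_mul_le' hinv (abs_mul_le' (ip_abs x y) (hw3 s (u * t⁻¹) η ε hε))
      rw [mul_one_div_cancel hmm.ne'] at this
      linarith
  have gD : ∀ s x t (ε : VV → ℝ), (∀ v, |ε v| ≤ 1) →
      Good π m (Gs w σ x (π s * t) (fun η => ε ((rho s)⁻¹ η)) - Gs w σ x t ε) := by
    intro s x t ε hε
    refine good_small π m hm1 _ (fun a => by simp [Gs_inl]) ?_
    rintro ⟨y, η, u⟩
    simp only [Pi.sub_apply, Gs_inr]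
    rw [← mul_sub, mul_inv_rev, ← mul_assoc]
    have := abs_mul_le' (ip_abs x y) (hw4 s (u * t⁻¹) η ε hε)
    rwa [mul_one_div_cancel hmm.ne'] at this
  have hdec : ∀ (x : Cube m) t, Gs w σ x t 1 = Ks w x t - ∑ i, (sg (x i) / m) • Fs w i t := by
    intro x t
    funext a
    rcases a with ⟨y, u⟩ | ⟨y, η, u⟩
    · simp only [Gs_inl, Pi.sub_apply, Finset.sum_apply, Pi.smul_apply, Ks, Fs, Sum.elim_inl,
        smul_eq_mul, ip, Finset.sum_mul]
      rw [← Finset.sum_sub_distrib]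
      symm
      refine Finset.sum_eq_zero fun i _ => ?_
      field_simp
      ring
    · simp [Gs_inr, Ks, Fs, Finset.sum_apply]
  let N : ℝ := (Fintype.card H : ℝ) * (Fintype.card (Cube m) : ℝ)
  have hN : 0 < N := by
    have h1 : (0 : ℝ) < Fintype.card H := by exact_mod_cast Fintype.card_pos
    have h2 : (0 : ℝ) < Fintype.card (Cube m) := by exact_mod_cast Fintype.card_pos
    exact mul_pos h1 h2
  let L : VV → (VV → ℝ) →ₗ[ℝ] ℝ := fun v => (1 / (N * ((m : ℝ) * m))) •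
    ∑ t : H, ∑ x : Cube m, (Q (Sum.inr (x, v, t))).comp (Gs w σ x t)
  have hL : ∀ v ε, L v ε = (1 / (N * ((m : ℝ) * m))) *
      ∑ t : H, ∑ x : Cube m, Q (Sum.inr (x, v, t)) (Gs w σ x t ε) := by
    intro v ε
    simp [L, LinearMap.sum_apply]
  let v0 : VV := ⟨0, 0, ⟨(1, 0), by simp⟩⟩
  let pr : Lev H m × H → VV := fun p =>
    Sum.elim (fun _ => v0) (fun a => σ (a.2.2 * p.2⁻¹) a.2.1) p.1
  refine star L ((B ×ˢ Finset.univ).image pr) (fun v ε hε => ?_) (fun v => ?_)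
    (fun s v ε hε => ?_)
  · rw [hL, Finset.sum_eq_zero, mul_zero]
    refine fun t _ => Finset.sum_eq_zero fun x _ => hloc _ _ ?_
    rintro (a | ⟨y, η, u⟩) hb
    · rfl
    · rw [Gs_inr, hε, mul_zero, mul_zero]
      exact Finset.mem_image.2 ⟨(Sum.inr (y, η, u), t), by simp [hb], rfl⟩
  · rw [hL, one_div_mul_eq_div, le_div_iff₀ (by positivity)]
    have h1 : ∀ t : H, (Fintype.card (Cube m) : ℝ) * (1 / 2 * ((m : ℝ) * m)) ≤
        ∑ x : Cube m, Q (Sum.inr (x, v, t)) (Gs w σ x t 1) := by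
      intro t
      simp only [hdec, map_sub, map_sum, map_smul, smul_eq_mul]
      rw [Finset.sum_sub_distrib, Finset.sum_comm]
      have h2 : (Fintype.card (Cube m) : ℝ) * ((m : ℝ) * m - Λ * m - 1) ≤
          ∑ x : Cube m, Q (Sum.inr (x, v, t)) (Ks w x t) := by
        rw [← nsmul_eq_mul, ← Finset.card_univ, ← Finset.sum_const]
        refine Finset.sum_le_sum fun x _ => ?_
        have a1 := hvert _ (gK x t) x v t
        have a2 := hfix _ (gK x t) (x, t)
        have a3 : Ks w x t (Sum.inl (x, t)) = (m : ℝ) * m := by simp [Ks, ip_self, hw1]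
        rw [a3] at a2
        linarith [(abs_le.1 a1).1, (abs_le.1 a2).1]
      have h3 : ∑ i, ∑ x : Cube m, sg (x i) / m * Q (Sum.inr (x, v, t)) (Fs w i t) ≤
          (Fintype.card (Cube m) : ℝ) * (Λ * m) := by
        have h4 : ∀ i, ∑ x : Cube m, sg (x i) / m * Q (Sum.inr (x, v, t)) (Fs w i t) ≤
            (Fintype.card (Cube m) : ℝ) * Λ / m := by
          intro i
          have h5 := sum_sg i (fun x => Q (Sum.inr (x, v, t)) (Fs w i t)) Λ
            (fun y => hflip _ (gF i t) i y v t)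
          simp_rw [div_mul_eq_mul_div]
          rw [← Finset.sum_div]
          exact div_le_div_of_nonneg_right h5 hm0.le
        refine (Finset.sum_le_sum fun i _ => h4 i).trans (le_of_eq ?_)
        rw [Finset.sum_const, Finset.card_univ, Fintype.card_fin, nsmul_eq_mul]
        push_cast
        field_simp
      have h6 : (0 : ℝ) ≤ Fintype.card (Cube m) := by positivity
      have h7 : 1 / 2 * ((m : ℝ) * m) ≤ (m : ℝ) * m - Λ * m - 1 - Λ * m := by nlinarith
      have h8 := mul_le_mul_of_nonneg_left h7 h6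
      linarith
    have h9 := Finset.sum_le_sum fun t (_ : t ∈ Finset.univ) => h1 t
    rw [Finset.sum_const, Finset.card_univ, nsmul_eq_mul] at h9
    simp only [N]
    linarith
  · rw [hL, hL, ← mul_sub, abs_mul, abs_of_pos (by positivity), one_div_mul_eq_div,
      div_le_iff₀ (by positivity), ← Equiv.sum_comp (Equiv.mulLeft (π s)),
      ← Finset.sum_sub_distrib]
    refine (Finset.abs_sum_le_sum_abs _ _).trans ?_
    have h1 : ∀ t : H, |∑ x : Cube m, Q (Sum.inr (x, rho s v, Equiv.mulLeft (π s) t))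
        (Gs w σ x (Equiv.mulLeft (π s) t) fun η => ε ((rho s)⁻¹ η)) -
        ∑ x : Cube m, Q (Sum.inr (x, v, t)) (Gs w σ x t ε)| ≤
        (Fintype.card (Cube m) : ℝ) * (1 / 10000 * ((m : ℝ) * m)) := by
      intro t
      rw [← Finset.sum_sub_distrib]
      refine (Finset.abs_sum_le_sum_abs _ _).trans ?_
      rw [← nsmul_eq_mul, ← Finset.card_univ, ← Finset.sum_const]
      refine Finset.sum_le_sum fun x _ => ?_
      rw [Equiv.coe_mulLeft]
      have a1 := hX _ (gG x (π s * t) (fun η => ε ((rho s)⁻¹ η)) (fun η => hε _)) s x v t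
      have a2 := hvert _ (gD s x t ε hε) x v t
      have a3 := hfix _ (gD s x t ε hε) (x, t)
      simp only [Pi.sub_apply, Gs_inl, sub_zero] at a3
      rw [map_smul, map_smul, smul_eq_mul, smul_eq_mul, ← mul_sub, abs_mul,
        abs_of_pos (by positivity), one_div_mul_eq_div, div_le_iff₀ hm0] at a1
      rw [map_sub (Q (Sum.inr _))] at a2
      have a4 : Λ * 2 * m + Λ * m + 1 ≤ 1 / 10000 * ((m : ℝ) * m) := by nlinarith
      rw [abs_le] at a1 a2 a3 ⊢
      constructor <;> linarith [a1.1, a1.2, a2.1, a2.2, a3.1, a3.2]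
    have h9 := Finset.sum_le_sum fun t (_ : t ∈ Finset.univ) => h1 t
    rw [Finset.sum_const, Finset.card_univ, nsmul_eq_mul] at h9
    simp only [N]
    linarith

end Vale.Agent.P090
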