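import Mathlib

namespace Vale.Agent.P090

open FreeGroup hiding map_mul map_one map_inv

variable {ι : Type} [Fintype ι] [DecidableEq ι]

/-- The ball of radius `r` in the free group. -/
abbrev Ball (ι : Type) [DecidableEq ι] (r : ℕ) : Type := {w : FreeGroup ι // w.norm ≤ r}

instance instFiniteBall (r : ℕ) : Finite (Ball ι r) := by
  have h := (List.finite_length_le (ι × Bool) r).image (FreeGroup.mk (α := ι))
  have h2 : {w : FreeGroup ι | w.norm ≤ r}.Finite := by
    refine h.subset fun w hw => ⟨w.toWord, hw, FreeGroup.mk_toWord⟩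
  exact h2.to_subtype

/-- The identity as a point of the ball. -/
def Ball.one (r : ℕ) : Ball ι r := ⟨1, by simp⟩

theorem exists_gen (r : ℕ) (s : ι) : ∃ σ : Equiv.Perm (Ball ι r),
    ∀ b : Ball ι r, (of s * b.1).norm ≤ r → (σ b).1 = of s * b.1 := by
  obtain ⟨σ, hσ⟩ := Equiv.Perm.exists_extending_pair
    (f := fun b : {b : Ball ι r // (of s * b.1).norm ≤ r} => b.1)
    (g := fun b : {b : Ball ι r // (of s * b.1).norm ≤ r} => (⟨of s * b.1.1, b.2⟩ : Ball ι r))
    Subtype.val_injective (by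
      intro a b hab
      have h1 : of s * a.1.1 = of s * b.1.1 := congrArg Subtype.val hab
      exact Subtype.ext (Subtype.ext (mul_left_cancel h1)))
  exact ⟨σ, fun b hb => congrArg Subtype.val (hσ ⟨b, hb⟩)⟩

/-- Permutations of the ball extending left multiplication by generators. -/
noncomputable def gen (r : ℕ) (s : ι) : Equiv.Perm (Ball ι r) := (exists_gen r s).choose

theorem gen_spec (r : ℕ) (s : ι) (b : Ball ι r) (h : (of s * b.1).norm ≤ r) :
    (gen r s b).1 = of s * b.1 := (exists_gen r s).choose_spec b h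

/-- The finite quotient map. -/
noncomputable def quo (r : ℕ) : FreeGroup ι →* Equiv.Perm (Ball ι r) := FreeGroup.lift (gen r)

theorem quo_mk (r : ℕ) (L : List (ι × Bool)) (hL : L.length ≤ r) :
    (quo r (mk L) (Ball.one r)).1 = mk L := by
  induction L with
  | nil => rfl
  | cons x L ih =>
    have hL' : L.length ≤ r := by simp at hL; omega
    have ih' := ih hL'
    have hn : (mk (x :: L)).norm ≤ r := norm_mk_le.trans hL
    obtain ⟨s, b⟩ := x
    cases b with
    | true =>
      have e : mk ((s, true) :: L) = of s * mk L := rfl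
      rw [e] at hn ⊢
      rw [map_mul, Equiv.Perm.mul_apply]
      have : quo r (of s) = gen r s := by simp [quo]
      rw [this, gen_spec r s _ (by rw [ih']; exact hn), ih']
    | false =>
      have e : mk ((s, false) :: L) = (of s)⁻¹ * mk L := rfl
      rw [e] at hn ⊢
      rw [map_mul, Equiv.Perm.mul_apply, map_inv]
      have : quo r (of s) = gen r s := by simp [quo]
      rw [this]
      have h3 : gen r s (⟨(of s)⁻¹ * mk L, hn⟩ : Ball ι r)
          = quo r (mk L) (Ball.one r) := by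
        apply Subtype.ext
        rw [gen_spec r s _ (by
          change (of s * ((of s)⁻¹ * mk L)).norm ≤ r
          rw [mul_inv_cancel_left]
          exact norm_mk_le.trans hL'), ih']
        exact mul_inv_cancel_left _ _
      rw [← h3]
      simp

theorem quo_inj (r : ℕ) {a b : FreeGroup ι} (ha : a.norm ≤ r) (hb : b.norm ≤ r)
    (h : quo r a = quo r b) : a = b := by
  have h1 := quo_mk r a.toWord ha
  have h2 := quo_mk r b.toWord hb
  rw [mk_toWord] at h1 h2
  rw [← h1, ← h2, h]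

open Classical in
/-- A short representative. -/
noncomputable def rep (r : ℕ) (k : Equiv.Perm (Ball ι r)) : FreeGroup ι :=
  if h : ∃ w : FreeGroup ι, w.norm ≤ r ∧ quo r w = k then h.choose else 1

open Classical in
/-- The weight. -/
noncomputable def wt (r : ℕ) (k : Equiv.Perm (Ball ι r)) : ℝ :=
  if ∃ w : FreeGroup ι, w.norm ≤ r ∧ quo r w = k then 1 - ((rep r k).norm : ℝ) / r else 0

theorem rep_quo (r : ℕ) {w : FreeGroup ι} (hw : w.norm ≤ r) : rep r (quo r w) = w := by
  have h : ∃ w' : FreeGroup ι, w'.norm ≤ r ∧ quo r w' = quo r w := ⟨w, hw, rfl⟩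
  rw [rep, dif_pos h]
  exact quo_inj r h.choose_spec.1 hw h.choose_spec.2

theorem wt_quo (r : ℕ) {w : FreeGroup ι} (hw : w.norm ≤ r) :
    wt r (quo r w) = 1 - (w.norm : ℝ) / r := by
  rw [wt, if_pos ⟨w, hw, rfl⟩, rep_quo r hw]

theorem wt_one (r : ℕ) : wt (ι := ι) r 1 = 1 := by
  have := wt_quo (ι := ι) r (w := 1) (by simp)
  simpa using this

theorem wt_cases (r : ℕ) (hr : 0 < r) (k : Equiv.Perm (Ball ι r)) :
    wt r k = 0 ∨ ∃ w : FreeGroup ι, w.norm + 1 ≤ r ∧ quo r w = k := by
  by_cases h : ∃ w : FreeGroup ι, w.norm ≤ r ∧ quo r w = k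
  · obtain ⟨w, hw, rfl⟩ := h
    rcases hw.eq_or_lt with h1 | h1
    · left
      have : (r : ℝ) ≠ 0 := by positivity
      rw [wt_quo r hw, h1, div_self this, sub_self]
    · exact Or.inr ⟨w, h1, rfl⟩
  · left
    rw [wt, if_neg h]

theorem wt_mem (r : ℕ) (hr : 0 < r) (k : Equiv.Perm (Ball ι r)) : 0 ≤ wt r k ∧ wt r k ≤ 1 := by
  rcases wt_cases r hr k with h | ⟨w, hw, rfl⟩
  · rw [h]; norm_num
  · rw [wt_quo r (by omega)]
    have h1 : (w.norm : ℝ) ≤ r := by exact_mod_cast (by omega : w.norm ≤ r)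
    have h2 : (0 : ℝ) < r := by exact_mod_cast hr
    have h3 : (w.norm : ℝ) / r ≤ 1 := (div_le_one h2).2 h1
    have h4 : 0 ≤ (w.norm : ℝ) / r := by positivity
    constructor <;> linarith

omit [Fintype ι] in
theorem norm_step {a b : FreeGroup ι} (hab : a.norm + b.norm ≤ 1) (w : FreeGroup ι) :
    (a * w * b).norm ≤ w.norm + 1 := by
  have h1 := norm_mul_le (a * w) b
  have h2 := norm_mul_le a w
  omega

theorem step_aux (r : ℕ) (hr : 0 < r) {a b : FreeGroup ι} (hab : a.norm + b.norm ≤ 1)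
    {w : FreeGroup ι} (hw : w.norm + 1 ≤ r) :
    rep r (quo r (a * w * b)) = a * rep r (quo r w) * b ∧
      |wt r (quo r (a * w * b)) - wt r (quo r w)| ≤ 1 / r := by
  have h1 := norm_step hab w
  have h2 : w.norm ≤ (a * w * b).norm + 1 := by
    have := norm_step (a := a⁻¹) (b := b⁻¹) (by simpa using hab) (a * w * b)
    simpa [mul_assoc] using this
  rw [rep_quo r (by omega), rep_quo r (by omega), wt_quo r (by omega), wt_quo r (by omega)]
  refine ⟨rfl, ?_⟩
  have h3 : (0 : ℝ) < r := by exact_mod_cast hr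
  have h4 : ((a * w * b).norm : ℝ) ≤ w.norm + 1 := by exact_mod_cast h1
  have h5 : (w.norm : ℝ) ≤ (a * w * b).norm + 1 := by exact_mod_cast h2
  rw [show (1 - ((a * w * b).norm : ℝ) / r) - (1 - (w.norm : ℝ) / r)
    = ((w.norm : ℝ) - (a * w * b).norm) / r by ring, abs_div, abs_of_pos h3]
  apply div_le_div_of_nonneg_right _ h3.le
  rw [abs_le]
  constructor <;> linarith

theorem step (r : ℕ) (hr : 0 < r) {a b : FreeGroup ι} (hab : a.norm + b.norm ≤ 1)
    (k : Equiv.Perm (Ball ι r)) :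
    (wt r k = 0 ∧ wt r (quo r a * k * quo r b) = 0) ∨
      (rep r (quo r a * k * quo r b) = a * rep r k * b ∧
        |wt r (quo r a * k * quo r b) - wt r k| ≤ 1 / r) := by
  rcases wt_cases r hr k with h | ⟨w, hw, rfl⟩
  · rcases wt_cases r hr (quo r a * k * quo r b) with h' | ⟨w, hw, hk⟩
    · exact Or.inl ⟨h, h'⟩
    · right
      have hk' : k = quo r (a⁻¹ * w * b⁻¹) := by
        rw [map_mul, map_mul, hk, map_inv, map_inv]
        group
      have := step_aux r hr (a := a⁻¹) (b := b⁻¹) (by simpa using hab) hw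
      rw [← hk', hk] at this
      refine ⟨?_, by rw [abs_sub_comm]; exact this.2⟩
      rw [this.1]
      group
  · right
    rw [← map_mul, ← map_mul]
    exact step_aux r hr hab hw

theorem exists_gadget {V : Type} (ρ : ι → Equiv.Perm V) (r : ℕ) (hr : 0 < r) :
    ∃ (π : ι → Equiv.Perm (Ball ι r)) (w : Equiv.Perm (Ball ι r) → ℝ)
      (σ : Equiv.Perm (Ball ι r) → V → V), w 1 = 1 ∧ (∀ k, 0 ≤ w k ∧ w k ≤ 1) ∧
      (∀ s k η (ε : V → ℝ), (∀ v, |ε v| ≤ 1) →
        |w (π s * k) * ε (σ (π s * k) (ρ s η)) - w k * ε (σ k η)| ≤ 1 / r) ∧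
      (∀ s k η (ε : V → ℝ), (∀ v, |ε v| ≤ 1) →
        |w (k * (π s)⁻¹) * ε ((ρ s)⁻¹ (σ (k * (π s)⁻¹) η)) - w k * ε (σ k η)| ≤ 1 / r) := by
  let ρ' : FreeGroup ι →* Equiv.Perm V := FreeGroup.lift ρ
  have hρ : ∀ s, ρ' (of s) = ρ s := fun s => by simp [ρ']
  have hr' : (0 : ℝ) ≤ 1 / r := by positivity
  have aux : ∀ (a b x : ℝ), |a - b| ≤ 1 / r → |x| ≤ 1 → |a * x - b * x| ≤ 1 / r := by
    intro a b x h1 h2
    rw [← sub_mul, abs_mul]
    exact (mul_le_of_le_one_right (abs_nonneg _) h2).trans h1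
  refine ⟨fun s => quo r (of s), wt r, fun k η => (ρ' (rep r k))⁻¹ η, wt_one r, wt_mem r hr,
    fun s k η ε hε => ?_, fun s k η ε hε => ?_⟩
  · rcases step r hr (a := of s) (b := 1) (by simp) k with h | h
    · rw [map_one, mul_one] at h
      simp only [h.1, h.2, zero_mul, sub_self, abs_zero]
      exact hr'
    · rw [map_one, mul_one, mul_one] at h
      simp only [h.1, map_mul, hρ, mul_inv_rev, Equiv.Perm.mul_apply, Equiv.Perm.coe_inv,
        Equiv.symm_apply_apply]
      exact aux _ _ _ h.2 (hε _)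
  · rcases step r hr (a := 1) (b := (of s)⁻¹) (by simp) k with h | h
    · rw [map_one, one_mul, map_inv] at h
      simp only [h.1, h.2, zero_mul, sub_self, abs_zero]
      exact hr'
    · rw [map_one, one_mul, one_mul, map_inv] at h
      simp only [h.1, map_mul, map_inv, hρ, mul_inv_rev, inv_inv, Equiv.Perm.mul_apply,
        Equiv.Perm.coe_inv, Equiv.symm_apply_apply]
      exact aux _ _ _ h.2 (hε _)

end Vale.Agent.P090
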