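import Vale.Agent.P090.Reduce
import Vale.Agent.P090.GMetric
import Vale.Agent.P090.Res
import Vale.Agent.P090.Level

namespace Vale.Agent.P090

open Finset

/-- The finite group at level `m`. -/
abbrev HH (m : ℕ) : Type := Equiv.Perm (Ball Gen ((m + 1) * (m + 1)))

/-- The whole space. -/
abbrev MM : Type := Option (Σ m : ℕ, Lev (HH m) (m + 1))

theorem main : ∃ (M : Type) (_ : MetricSpace M) (o : M),
    (∃ c : ℝ, 0 < c ∧ ∀ x y : M, x ≠ y → c ≤ dist x y) ∧ ¬ HasBAP (FreeSpace o) := by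
  classical
  have hg := fun m : ℕ => exists_gadget rho ((m + 1) * (m + 1)) (by positivity)
  choose π w σ hw1 hw2 hw3 hw4 using hg
  let F : Set (MM → ℝ) := {f | f none = 0 ∧ ∀ m, Good (π m) (m + 1) (fun a => f (some ⟨m, a⟩))}
  have hF0 : (0 : MM → ℝ) ∈ F := ⟨rfl, fun m =>
    good_small _ _ (by omega) _ (fun _ => rfl) (fun _ => by simp)⟩
  let R : MM → ℝ := fun u => u.elim 0 fun p => ((p.1 + 1 : ℕ) : ℝ) * ((p.1 + 1 : ℕ) : ℝ)
  obtain ⟨I, hsep, hlip, hdist⟩ := exists_metric F hF0 R (by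
    rintro f hf (_ | ⟨m, a⟩)
    · simp [R, hf.1]
    · exact (hf.2 m).1 a)
  refine ⟨MM, I, none, ⟨1, one_pos, hsep⟩, fun hB => ?_⟩
  obtain ⟨lam, hlam, hred⟩ := reduce none hB
  obtain ⟨m, hm⟩ := exists_nat_ge (40000 * (lam + 1))
  have : Fintype (HH m) := Fintype.ofFinite _
  let inj : Lev (HH m) (m + 1) → MM := fun a => some ⟨m, a⟩
  have hinj : Function.Injective inj := fun a b h => by
    simpa [inj] using h
  obtain ⟨B, c, hc⟩ := hred ((Finset.univ : Finset (Cube (m + 1) × HH m)).image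
    fun a => inj (Sum.inl a)) (((m + 1 : ℕ) : ℝ) * ((m + 1 : ℕ) : ℝ))
  let ext : (Lev (HH m) (m + 1) → ℝ) → MM → ℝ := fun g => Function.extend inj g 0
  have ext1 : ∀ g a, ext g (inj a) = g a := fun g a => hinj.extend_apply g 0 a
  have ext2 : ∀ g u, (¬ ∃ a, inj a = u) → ext g u = 0 := fun g u h =>
    Function.extend_apply' (f := inj) g (0 : MM → ℝ) u h
  have extF : ∀ g, Good (π m) (m + 1) g → ext g ∈ F := by
    intro g hg
    refine ⟨ext2 g none (by simp [inj]), fun m' => ?_⟩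
    by_cases h : m' = m
    · subst h
      have : (fun a => ext g (some ⟨m', a⟩)) = g := funext fun a => ext1 g a
      rw [this]
      exact hg
    · have : (fun a => ext g (some ⟨m', a⟩)) = fun _ => 0 := funext fun a => ext2 g _ (by
        rintro ⟨b, hb⟩
        simp only [inj, Option.some.injEq] at hb
        exact h (congrArg Sigma.fst hb).symm)
      rw [this]
      exact good_small _ _ (by omega) _ (fun _ => rfl) (fun _ => by simp)
  let Q : Lev (HH m) (m + 1) → (Lev (HH m) (m + 1) → ℝ) →ₗ[ℝ] ℝ := fun a =>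
    { toFun := fun g => ∑ b ∈ B, c (inj a) b * ext g b
      map_add' := fun g g' => by
        rw [← Finset.sum_add_distrib]
        refine Finset.sum_congr rfl fun b _ => ?_
        by_cases h : ∃ a, inj a = b
        · obtain ⟨a, rfl⟩ := h
          simp only [ext1, Pi.add_apply, mul_add]
        · simp only [ext2 _ _ h, mul_zero, add_zero]
      map_smul' := fun r g => by
        simp only [RingHom.id_apply, smul_eq_mul, Finset.mul_sum]
        refine Finset.sum_congr rfl fun b _ => ?_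
        by_cases h : ∃ a, inj a = b
        · obtain ⟨a, rfl⟩ := h
          simp only [ext1, Pi.smul_apply, smul_eq_mul]
          ring
        · simp only [ext2 _ _ h, mul_zero] }
  have hm1 : (1 : ℝ) ≤ ((m + 1 : ℕ) : ℝ) := by exact_mod_cast (by omega : 1 ≤ m + 1)
  have hrad : ∀ a, dist (inj a) none ≤ ((m + 1 : ℕ) : ℝ) * ((m + 1 : ℕ) : ℝ) := fun a =>
    hdist _ _ _ (by nlinarith) fun f hf => by
      rw [hf.1, sub_zero]
      exact (hf.2 m).1 a
  have hedge : ∀ g, Good (π m) (m + 1) g → ∀ a b (l : ℝ), 1 ≤ l →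
      (∀ g', Good (π m) (m + 1) g' → |g' a - g' b| ≤ l) → |Q a g - Q b g| ≤ (lam + 1) * l := by
    intro g hg a b l hl h
    have h1 := (hc (ext g) (extF g hg).1 (hlip _ (extF g hg))).1 (inj a) (inj b) (hrad a) (hrad b)
    have h2 : dist (inj a) (inj b) ≤ l := hdist _ _ _ hl fun f hf => h _ (hf.2 m)
    have h3 := mul_le_mul_of_nonneg_left h2 (show 0 ≤ lam by linarith)
    change |∑ b' ∈ B, c (inj a) b' * ext g b' - ∑ b' ∈ B, c (inj b) b' * ext g b'| ≤ _
    linarith
  refine level (π m) (m + 1) (w m) (σ m) (hw1 m) (hw2 m) (hw3 m) (hw4 m) Q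
    (B.preimage inj hinj.injOn) (lam + 1) (by linarith) (fun a g hg => ?_)
    (fun g hg y η u => hedge g hg _ _ _ hm1 fun g' hg' => hg'.2.1 y η u)
    (fun g hg i y η u => hedge g hg _ _ _ (by norm_num) fun g' hg' => hg'.2.2.1 i y η u)
    (fun g hg s y η u => hedge g hg _ _ _ (by norm_num) fun g' hg' => hg'.2.2.2 s y η u)
    (fun g hg a => ?_) (by push_cast; linarith)
  · refine Finset.sum_eq_zero fun b hb => ?_
    by_cases h : ∃ a, inj a = b
    · obtain ⟨a', rfl⟩ := h
      rw [ext1, hg a' (Finset.mem_preimage.2 hb), mul_zero]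
    · rw [ext2 _ _ h, mul_zero]
  · have h1 := (hc (ext g) (extF g hg).1 (hlip _ (extF g hg))).2 (inj (Sum.inl a))
      (Finset.mem_image.2 ⟨a, Finset.mem_univ _, rfl⟩) (hrad _)
    rwa [ext1] at h1

end Vale.Agent.P090
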