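import Vale.Agent.P090.Defs

namespace Vale.Agent.P090

variable {M : Type*} [MetricSpace M]

theorem delta_mem (o x : M) : delta o x ∈ FreeSpace o :=
  Submodule.le_topologicalClosure _ (Submodule.subset_span ⟨x, rfl⟩)

theorem delta_apply (o x : M) (f : Lip0 o) : delta o x f = f.toFun x := rfl

theorem norm_delta_sub (o x y : M) : ‖delta o x - delta o y‖ ≤ dist x y := by
  refine ContinuousLinearMap.opNorm_le_bound _ dist_nonneg fun f => ?_
  have h := f.abs_sub_le x y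
  rw [mul_comm] at h
  exact h

theorem norm_delta (o x : M) : ‖delta o x‖ ≤ dist x o := by
  refine ContinuousLinearMap.opNorm_le_bound _ dist_nonneg fun f => ?_
  have h1 := f.abs_sub_le x o
  have h2 : f.toFun o = 0 := (show lipSub o from f).2.1
  rw [h2, sub_zero, mul_comm] at h1
  exact h1

/-- A 1-Lipschitz function vanishing at the base point as an element of `Lip0`. -/
def mkLip (o : M) (f : M → ℝ) (h0 : f o = 0) (h : ∀ x y, |f x - f y| ≤ dist x y) : Lip0 o :=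
  (⟨f, h0, 1, LipschitzWith.of_dist_le_mul fun x y => by simpa [Real.dist_eq] using h x y⟩ :
    lipSub o)

theorem norm_mkLip (o : M) (f : M → ℝ) (h0 : f o = 0) (h : ∀ x y, |f x - f y| ≤ dist x y) :
    ‖mkLip o f h0 h‖ ≤ 1 :=
  lipConst_le o zero_le_one fun x y => by
    rw [one_mul]
    exact h x y

theorem abstract_reduce {X ι α : Type*} [NormedAddCommGroup X] [NormedSpace ℝ X] (h : HasBAP X)
    (d : α → X) (z : ι → X) (hz : ∀ x : X, ∃ i, ‖x - z i‖ < 1 / 2) :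
    ∃ lam : ℝ, 1 ≤ lam ∧ ∀ (A : Finset α) (Rad : ℝ), ∃ (t : Finset ι) (c : α → ι),
      (∀ u, ‖d u‖ ≤ Rad → c u ∈ t) ∧
      (∀ u v, ‖d u‖ ≤ Rad → ‖d v‖ ≤ Rad → ‖z (c u) - z (c v)‖ ≤ lam * ‖d u - d v‖ + 1) ∧
      (∀ a ∈ A, ‖d a‖ ≤ Rad → ‖z (c a) - d a‖ ≤ 1) := by
  classical
  obtain ⟨lam, hlam, h⟩ := h
  refine ⟨lam, hlam, fun A Rad => ?_⟩
  obtain ⟨T, hfin, hT, hA⟩ := h (d '' A) ((A.finite_toSet.image d).isCompact) (1 / 2) (by norm_num)
  let E : Submodule ℝ X := LinearMap.range (T : X →ₗ[ℝ] X)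
  have : ProperSpace E := FiniteDimensional.proper_real E
  have hK : IsCompact (Subtype.val '' Metric.closedBall (0 : E) (lam * Rad)) :=
    (isCompact_closedBall _ _).image continuous_subtype_val
  obtain ⟨t, ht⟩ := hK.elim_finite_subcover (fun c : ι => Metric.ball (z c) (1 / 2))
    (fun _ => Metric.isOpen_ball) (by
      intro w _
      obtain ⟨i, hi⟩ := hz w
      exact Set.mem_iUnion.2 ⟨i, by rwa [Metric.mem_ball, dist_eq_norm]⟩)
  obtain ⟨i0, -⟩ := hz 0
  have key : ∀ u : α, ∃ c : ι, ‖d u‖ ≤ Rad → c ∈ t ∧ ‖T (d u) - z c‖ < 1 / 2 := by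
    intro u
    by_cases hu : ‖d u‖ ≤ Rad
    · have hmem : T (d u) ∈ Subtype.val '' Metric.closedBall (0 : E) (lam * Rad) := by
        have hm : T (d u) ∈ E := ⟨d u, rfl⟩
        refine ⟨⟨T (d u), hm⟩, ?_, rfl⟩
        rw [mem_closedBall_zero_iff]
        change ‖T (d u)‖ ≤ _
        exact (T.le_opNorm _).trans (mul_le_mul hT hu (norm_nonneg _) (by linarith))
      obtain ⟨c, hc, hb⟩ := Set.mem_iUnion₂.1 (ht hmem)
      exact ⟨c, fun _ => ⟨hc, by rwa [Metric.mem_ball, dist_eq_norm] at hb⟩⟩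
    · exact ⟨i0, fun h' => absurd h' hu⟩
  choose cc hcc using key
  refine ⟨t, cc, fun u hu => (hcc u hu).1, fun u v hu hv => ?_, fun a ha hu => ?_⟩
  · have h1 := (hcc u hu).2
    have h2 := (hcc v hv).2
    have h5 : ‖T (d u - d v)‖ ≤ lam * ‖d u - d v‖ :=
      (T.le_opNorm _).trans (mul_le_mul_of_nonneg_right hT (norm_nonneg _))
    have h6 : z (cc u) - z (cc v) =
        T (d u - d v) - (T (d u) - z (cc u)) + (T (d v) - z (cc v)) := by
      rw [map_sub]; abel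
    rw [h6]
    have h7 := norm_add_le (T (d u - d v) - (T (d u) - z (cc u))) (T (d v) - z (cc v))
    have h8 := norm_sub_le (T (d u - d v)) (T (d u) - z (cc u))
    linarith
  · have h1 := (hcc a hu).2
    have h2 := hA (d a) ⟨a, ha, rfl⟩
    have h6 : z (cc a) - d a = (T (d a) - d a) - (T (d a) - z (cc a)) := by abel
    rw [h6]
    have h8 := norm_sub_le (T (d a) - d a) (T (d a) - z (cc a))
    linarith

theorem reduce (o : M) (h : HasBAP (FreeSpace o)) :
    ∃ lam : ℝ, 1 ≤ lam ∧ ∀ (A : Finset M) (Rad : ℝ), ∃ (B : Finset M) (c : M → M → ℝ),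
      ∀ f : M → ℝ, f o = 0 → (∀ x y, |f x - f y| ≤ dist x y) →
        (∀ u v, dist u o ≤ Rad → dist v o ≤ Rad →
          |∑ b ∈ B, c u b * f b - ∑ b ∈ B, c v b * f b| ≤ lam * dist u v + 1) ∧
        (∀ a ∈ A, dist a o ≤ Rad → |∑ b ∈ B, c a b * f b - f a| ≤ 1) := by
  classical
  let d : M → FreeSpace o := fun x => ⟨delta o x, delta_mem o x⟩
  let z0 : (M →₀ ℝ) → StrongDual ℝ (Lip0 o) := fun c => c.sum fun i a => a • delta o i
  have hz0 : ∀ c, z0 c ∈ FreeSpace o := fun c =>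
    Submodule.le_topologicalClosure _ (Finsupp.mem_span_range_iff_exists_finsupp.2 ⟨c, rfl⟩)
  let z : (M →₀ ℝ) → FreeSpace o := fun c => ⟨z0 c, hz0 c⟩
  obtain ⟨lam, hlam, h⟩ := abstract_reduce h d z (by
    intro w
    have hw : (w : StrongDual ℝ (Lip0 o)) ∈ closure (Submodule.span ℝ (Set.range (delta o)) :
        Set (StrongDual ℝ (Lip0 o))) := w.2
    obtain ⟨y, hy, hd⟩ := Metric.mem_closure_iff.1 hw (1 / 2) (by norm_num)
    obtain ⟨c, hc⟩ := Finsupp.mem_span_range_iff_exists_finsupp.1 hy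
    refine ⟨c, ?_⟩
    rw [dist_eq_norm, ← hc] at hd
    exact hd)
  refine ⟨lam, hlam, fun A Rad => ?_⟩
  obtain ⟨t, cc, h1, h2, h3⟩ := h A Rad
  refine ⟨t.biUnion Finsupp.support, fun u b => cc u b, fun f h0 hf => ?_⟩
  let F := mkLip o f h0 hf
  have hF : ‖F‖ ≤ 1 := norm_mkLip o f h0 hf
  have hev : ∀ (φ : StrongDual ℝ (Lip0 o)), |φ F| ≤ ‖φ‖ := fun φ => by
    have := φ.le_opNorm F
    rw [Real.norm_eq_abs] at this
    exact this.trans (mul_le_of_le_one_right (norm_nonneg _) hF)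
  have hn : ∀ u, dist u o ≤ Rad → ‖d u‖ ≤ Rad := fun u hu => (norm_delta o u).trans hu
  have hz : ∀ u, dist u o ≤ Rad →
      ∑ b ∈ t.biUnion Finsupp.support, cc u b * f b = z0 (cc u) F := by
    intro u hu
    have hs : (cc u).support ⊆ t.biUnion Finsupp.support :=
      Finset.subset_biUnion_of_mem _ (h1 u (hn u hu))
    simp only [z0]
    rw [Finsupp.sum_of_support_subset _ hs _ (by simp), _root_.sum_apply]
    rfl
  constructor
  · intro u v hu hv
    rw [hz u hu, hz v hv]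
    have h4 := hev (z0 (cc u) - z0 (cc v))
    have h5 : ‖z0 (cc u) - z0 (cc v)‖ ≤ lam * ‖delta o u - delta o v‖ + 1 :=
      h2 u v (hn u hu) (hn v hv)
    have h6 := mul_le_mul_of_nonneg_left (norm_delta_sub o u v) (show 0 ≤ lam by linarith)
    have h7 : |z0 (cc u) F - z0 (cc v) F| ≤ ‖z0 (cc u) - z0 (cc v)‖ := h4
    linarith
  · intro a ha hu
    rw [hz a hu]
    have h4 := hev (z0 (cc a) - delta o a)
    have h5 : ‖z0 (cc a) - delta o a‖ ≤ 1 := h3 a ha (hn a hu)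
    have h7 : |z0 (cc a) F - f a| ≤ ‖z0 (cc a) - delta o a‖ := h4
    linarith

end Vale.Agent.P090
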