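import Vale.Agent.P090.Gap

namespace Vale.Agent.P090

open Finset

theorem gap2 {p q : ℕ} [NeZero p] [NeZero q] (hpq : p.Coprime q)
    (κ : ZMod p × ZMod p → ZMod q × ZMod q → ℝ) (hκ : ∀ x z, 0 ≤ κ x z)
    (A : Finset (ZMod p × ZMod p)) (B : Finset (ZMod q × ZMod q))
    (hA : (p : ℝ) ^ 2 ≤ 2 * A.card) (hB : (q : ℝ) ^ 2 ≤ 3 * B.card) :
    ∑ x, ∑ z, κ x z ≤ 24 * ∑ x ∈ A, ∑ z ∈ B, κ x z +
      832 * ∑ k : Fin 4, ∑ x, ∑ z, |κ (marg _ k x) (marg _ k z) - κ x z| := by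
  have : NeZero (p * q) := ⟨mul_ne_zero (NeZero.ne p) (NeZero.ne q)⟩
  let φ := ZMod.chineseRemainder hpq
  let Φ : ZMod (p * q) × ZMod (p * q) ≃ (ZMod p × ZMod p) × (ZMod q × ZMod q) :=
    (φ.toEquiv.prodCongr φ.toEquiv).trans (Equiv.prodProdProdComm _ _ _ _)
  have hΦ : ∀ k y, Φ (marg _ k y) = (marg _ k (Φ y).1, marg _ k (Φ y).2) := by
    intro k y
    fin_cases k <;>
      simp [Φ, marg, shT, shS, tr1, tr2, Equiv.prodProdProdComm, map_add]
  have h := l1gap (fun y => κ (Φ y).1 (Φ y).2) (fun y => hκ _ _) ((A ×ˢ B).map Φ.symm.toEmbedding)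
    (by
      rw [Finset.card_map, Finset.card_product]
      push_cast
      have := mul_le_mul hA hB (by positivity) (by positivity)
      nlinarith)
  rw [Finset.sum_map, Finset.sum_product] at h
  simp only [Equiv.coe_toEmbedding, Equiv.apply_symm_apply, hΦ] at h
  rw [Equiv.sum_comp Φ (fun w => κ w.1 w.2), Fintype.sum_prod_type] at h
  have h2 : ∀ k : Fin 4, ∑ y, |κ (marg _ k (Φ y).1) (marg _ k (Φ y).2) - κ (Φ y).1 (Φ y).2| =
      ∑ x, ∑ z, |κ (marg _ k x) (marg _ k z) - κ x z| := by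
    intro k
    rw [Equiv.sum_comp Φ (fun w => |κ (marg _ k w.1) (marg _ k w.2) - κ w.1 w.2|),
      Fintype.sum_prod_type]
  simp only [h2] at h
  exact h

section Generic
variable {V : Type} [DecidableEq V]

theorem l1_of_tests (L L' : (V → ℝ) →ₗ[ℝ] ℝ) (τ : Equiv.Perm V) (δ : ℝ)
    (h : ∀ ε : V → ℝ, (∀ η, |ε η| ≤ 1) → |L' (fun η => ε (τ⁻¹ η)) - L ε| ≤ δ) (U : Finset V) :
    ∑ η ∈ U, |(|L' (Pi.single (τ η) 1)| - |L (Pi.single η 1)|)| ≤ δ := by
  let d : V → ℝ := fun η => L' (Pi.single (τ η) 1) - L (Pi.single η 1)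
  let sg : V → ℝ := fun η => if 0 ≤ d η then 1 else -1
  have hsg : ∀ η, sg η * d η = |d η| := by
    intro η
    simp only [sg]
    split_ifs with h1
    · rw [one_mul, abs_of_nonneg h1]
    · rw [abs_of_neg (not_le.1 h1)]; ring
  let ε : V → ℝ := ∑ η ∈ U, sg η • (Pi.single η 1 : V → ℝ)
  have hε : ∀ η, |ε η| ≤ 1 := by
    intro η
    simp only [ε, Finset.sum_apply, Pi.smul_apply, Pi.single_apply, smul_eq_mul, mul_ite, mul_one,
      mul_zero, Finset.sum_ite_eq, sg]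
    split_ifs <;> norm_num
  have h1 : (fun η => ε (τ⁻¹ η)) = ∑ η ∈ U, sg η • (Pi.single (τ η) 1 : V → ℝ) := by
    funext η
    simp only [ε, Finset.sum_apply, Pi.smul_apply, Pi.single_apply, Equiv.Perm.coe_inv,
      Equiv.symm_apply_eq]
  have h2 := h ε hε
  rw [h1] at h2
  simp only [ε, map_sum, map_smul, smul_eq_mul] at h2
  rw [← Finset.sum_sub_distrib] at h2
  refine le_trans (Finset.sum_le_sum fun η _ => ?_) ((le_abs_self _).trans h2)
  rw [← mul_sub, hsg]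
  exact abs_abs_sub_abs_le_abs_sub _ _

theorem mass_of_loc (L : (V → ℝ) →ₗ[ℝ] ℝ) (U : Finset V)
    (h : ∀ ε : V → ℝ, (∀ η ∈ U, ε η = 0) → L ε = 0) (U1 : Finset V) (hU : U ⊆ U1) :
    L 1 ≤ ∑ η ∈ U1, |L (Pi.single η 1)| := by
  have h1 := h (1 - ∑ η ∈ U1, (Pi.single η 1 : V → ℝ)) (by
    intro η hη
    simp [Finset.sum_apply, Pi.single_apply, hU hη])
  rw [map_sub, map_sum, sub_eq_zero] at h1
  rw [h1]
  exact Finset.sum_le_sum fun η _ => le_abs_self _

theorem pot_test (ν φ : V → ℝ) (τ : Equiv.Perm V) (δ : ℝ) (U1 : Finset V)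
    (hν : ∀ η, η ∉ U1 → ν η = 0) (hφ : ∀ η, |φ η| ≤ 2)
    (h : ∀ U : Finset V, ∑ η ∈ U, |ν (τ η) - ν η| ≤ δ) :
    ∑ η ∈ U1, ν η * (φ (τ η) - φ η) ≤ 2 * δ := by
  let U2 := U1 ∪ U1.map τ.symm.toEmbedding
  have e1 : ∑ η ∈ U1, ν η * φ (τ η) = ∑ η ∈ U2, ν η * φ (τ η) :=
    Finset.sum_subset Finset.subset_union_left fun η _ hη => by rw [hν η hη, zero_mul]
  have e2 : ∑ η ∈ U1, ν η * φ η = ∑ η ∈ U2, ν (τ η) * φ (τ η) := by
    rw [← Finset.sum_subset (s₁ := U1.map τ.symm.toEmbedding) Finset.subset_union_right]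
    · rw [Finset.sum_map]
      simp
    · intro η _ hη
      rw [hν, zero_mul]
      intro h'
      exact hη (Finset.mem_map.2 ⟨τ η, h', by simp⟩)
  simp_rw [mul_sub]
  rw [Finset.sum_sub_distrib, e1, e2, ← Finset.sum_sub_distrib]
  refine le_trans (Finset.sum_le_sum fun η _ => ?_)
    (show ∑ η ∈ U2, 2 * |ν (τ η) - ν η| ≤ 2 * δ by
      rw [← Finset.mul_sum]; linarith [h U2])
  rw [← sub_mul]
  refine (le_abs_self _).trans ?_
  rw [abs_mul, abs_sub_comm, mul_comm]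
  exact mul_le_mul_of_nonneg_right (hφ _) (abs_nonneg _)

end Generic

/-- Pairwise coprime moduli. -/
def pp (j : ℕ) : ℕ := Nat.fermatNumber j

theorem pp_ge (j : ℕ) : 2 ≤ pp j := (Nat.two_lt_fermatNumber j).le

instance instNeZeroPp (j : ℕ) : NeZero (pp j) := ⟨by have := pp_ge j; omega⟩

/-- The discrete tori. -/
abbrev W (j : ℕ) : Type := ZMod (pp j) × ZMod (pp j)

theorem exists_neg (j : ℕ) : ∃ B : Finset (W j), ((pp j : ℝ)) ^ 2 ≤ 3 * B.card ∧
    ((pp j : ℝ)) ^ 2 ≤ 2 * (Bᶜ).card := by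
  have hc : Fintype.card (W j) = pp j * pp j := by simp [ZMod.card]
  obtain ⟨B, -, hB⟩ := Finset.exists_subset_card_eq (s := (Finset.univ : Finset (W j)))
    (n := pp j * pp j / 2) (by rw [Finset.card_univ, hc]; omega)
  have h4 : 4 ≤ pp j * pp j := by nlinarith [pp_ge j]
  refine ⟨B, ?_, ?_⟩
  · have : pp j * pp j ≤ 3 * B.card := by omega
    rw [sq]; exact_mod_cast this
  · have : pp j * pp j ≤ 2 * (Bᶜ).card := by rw [Finset.card_compl, hc]; omega
    rw [sq]; exact_mod_cast this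

/-- The points of negative colour. -/
noncomputable def negc (j : ℕ) : Finset (W j) := (exists_neg j).choose

/-- Nonzero lattice points. -/
abbrev EE : Type := {z : ℤ × ℤ // z ≠ 0}

/-- The shears on nonzero lattice points. -/
def eSh (b : Bool) : Equiv.Perm EE :=
  match b with
  | true => Equiv.Perm.subtypePerm (shT ℤ) (by
      rintro ⟨a, b⟩
      simp only [shT, Equiv.coe_fn_mk, ne_eq, Prod.mk_eq_zero]
      omega)
  | false => Equiv.Perm.subtypePerm (shS ℤ) (by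
      rintro ⟨a, b⟩
      simp only [shS, Equiv.coe_fn_mk, ne_eq, Prod.mk_eq_zero]
      omega)

/-- The set acted upon. -/
abbrev VV : Type := Σ j : ℕ, W j × EE

/-- Generators. -/
abbrev Gen : Type := Fin 4 ⊕ Bool

/-- The action of the generators. -/
noncomputable def rho (s : Gen) : Equiv.Perm VV :=
  match s with
  | Sum.inl k => Equiv.sigmaCongrRight fun _ => Equiv.prodCongr (marg _ k) (Equiv.refl EE)
  | Sum.inr b => Equiv.sigmaCongrRight fun j =>
      Equiv.prodCongrRight fun w => if w ∈ negc j then eSh b else 1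

theorem rho_inl (k : Fin 4) (j : ℕ) (w : W j) (e : EE) :
    rho (Sum.inl k) ⟨j, w, e⟩ = ⟨j, marg _ k w, e⟩ := rfl

theorem rho_inr_neg (b : Bool) (j : ℕ) (w : W j) (e : EE) (h : w ∈ negc j) :
    rho (Sum.inr b) ⟨j, w, e⟩ = ⟨j, w, eSh b e⟩ := by
  simp [rho, h]

theorem rho_inr_pos (b : Bool) (j : ℕ) (w : W j) (e : EE) (h : w ∉ negc j) :
    rho (Sum.inr b) ⟨j, w, e⟩ = ⟨j, w, e⟩ := by
  simp [rho, h]

theorem star (L : VV → (VV → ℝ) →ₗ[ℝ] ℝ) (U : Finset VV)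
    (hloc : ∀ v (ε : VV → ℝ), (∀ η ∈ U, ε η = 0) → L v ε = 0)
    (hmass : ∀ v, 1 / 2 ≤ L v 1)
    (heq : ∀ s v (ε : VV → ℝ), (∀ η, |ε η| ≤ 1) →
      |L (rho s v) (fun η => ε ((rho s)⁻¹ η)) - L v ε| ≤ 1 / 10000) : False := by
  classical
  let ν : VV → VV → ℝ := fun v η => |L v (Pi.single η 1)|
  have hν0 : ∀ v η, 0 ≤ ν v η := fun v η => abs_nonneg _
  have hl1 : ∀ s v (U' : Finset VV),
      ∑ η ∈ U', |ν (rho s v) (rho s η) - ν v η| ≤ 1 / 10000 := fun s v U' =>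
    l1_of_tests (L v) (L (rho s v)) (rho s) _ (heq s v) U'
  let I : Finset ℕ := U.image fun η => η.1
  let EU : Finset EE := U.image fun η => η.2.2
  let U1 : Finset VV := I.sigma fun i => (Finset.univ : Finset (W i)) ×ˢ EU
  have hU : U ⊆ U1 := by
    intro η hη
    simp only [U1, Finset.mem_sigma, Finset.mem_product, Finset.mem_univ, true_and]
    exact ⟨Finset.mem_image_of_mem _ hη, Finset.mem_image_of_mem (fun η : VV => η.2.2) hη⟩
  have hsupp : ∀ v η, η ∉ U1 → ν v η = 0 := by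
    intro v η hη
    simp only [ν, abs_eq_zero]
    apply hloc
    intro η' hη'
    rw [Pi.single_apply, if_neg]
    rintro rfl
    exact hη (hU hη')
  have hsum : ∀ F : VV → ℝ, ∑ η ∈ U1, F η = ∑ i ∈ I, ∑ z : W i, ∑ e ∈ EU, F ⟨i, z, e⟩ := by
    intro F
    simp only [U1]
    rw [Finset.sum_sigma]
    refine Finset.sum_congr rfl fun i _ => ?_
    rw [Finset.sum_product]
  obtain ⟨j, hj⟩ := Infinite.exists_notMem_finset I
  let e0 : EE := ⟨(1, 0), by simp⟩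
  let κ : (i : ℕ) → W j → W i → ℝ := fun i x z => ∑ e ∈ EU, ν ⟨j, x, e0⟩ ⟨i, z, e⟩
  have hgap : ∀ i ∈ I, ∑ x, ∑ z, κ i x z ≤ 24 * ∑ x ∈ (negc j)ᶜ, ∑ z ∈ negc i, κ i x z +
      832 * ∑ k : Fin 4, ∑ x, ∑ z, |κ i (marg _ k x) (marg _ k z) - κ i x z| := by
    intro i hi
    have hij : j ≠ i := fun h => hj (h ▸ hi)
    have hc : (pp j).Coprime (pp i) := Nat.pairwise_coprime_fermatNumber hij
    exact gap2 hc (κ i)
      (fun x z => Finset.sum_nonneg fun e _ => hν0 _ _) _ _ (exists_neg j).choose_spec.2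
      (exists_neg i).choose_spec.1
  have h1 : ∀ x : W j, 1 / 2 ≤ ∑ i ∈ I, ∑ z, κ i x z := by
    intro x
    have := mass_of_loc (L ⟨j, x, e0⟩) U (hloc _) U1 hU
    rw [hsum] at this
    exact (hmass _).trans this
  have h2 : ∀ x ∈ (negc j)ᶜ, ∑ i ∈ I, ∑ z ∈ negc i, κ i x z ≤ 4 / 10000 := by
    intro x hx
    rw [Finset.mem_compl] at hx
    have a1 := pot_test (ν ⟨j, x, e0⟩) (fun η => g1 η.2.2.1) (rho (Sum.inr true)) (1 / 10000) U1
      (hsupp _) (fun η => clampf_abs _) (fun U' => by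
        have := hl1 (Sum.inr true) ⟨j, x, e0⟩ U'
        rwa [rho_inr_pos _ _ _ _ hx] at this)
    have a2 := pot_test (ν ⟨j, x, e0⟩) (fun η => g2 η.2.2.1) (rho (Sum.inr false)) (1 / 10000) U1
      (hsupp _) (fun η => clampf_abs _) (fun U' => by
        have := hl1 (Sum.inr false) ⟨j, x, e0⟩ U'
        rwa [rho_inr_pos _ _ _ _ hx] at this)
    have a3 := add_le_add a1 a2
    rw [← Finset.sum_add_distrib, hsum] at a3
    refine le_trans (Finset.sum_le_sum fun i _ => ?_) (a3.trans (by norm_num))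
    rw [← Finset.sum_subset (Finset.subset_univ (negc i))]
    · refine Finset.sum_le_sum fun z hz => Finset.sum_le_sum fun e _ => ?_
      rw [rho_inr_neg _ _ _ _ hz, rho_inr_neg _ _ _ _ hz, ← mul_add]
      exact le_mul_of_one_le_right (hν0 _ _) (pot e.1 e.2)
    · intro z _ hz
      refine Finset.sum_eq_zero fun e _ => ?_
      rw [rho_inr_pos _ _ _ _ hz, rho_inr_pos _ _ _ _ hz]
      simp
  have h3 : ∀ (k : Fin 4) (x : W j),
      ∑ i ∈ I, ∑ z, |κ i (marg _ k x) (marg _ k z) - κ i x z| ≤ 1 / 10000 := by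
    intro k x
    have a1 := hl1 (Sum.inl k) ⟨j, x, e0⟩ U1
    rw [hsum] at a1
    refine le_trans (Finset.sum_le_sum fun i _ => Finset.sum_le_sum fun z _ => ?_) a1
    simp only [κ]
    rw [← Finset.sum_sub_distrib]
    exact Finset.abs_sum_le_sum_abs _ _
  have hs := Finset.sum_le_sum hgap
  rw [Finset.sum_add_distrib, ← Finset.mul_sum, ← Finset.mul_sum, Finset.sum_comm,
    Finset.sum_comm (s := I), Finset.sum_comm (s := I)] at hs
  have b1 : (Fintype.card (W j) : ℝ) * (1 / 2) ≤ ∑ x, ∑ i ∈ I, ∑ z, κ i x z := by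
    rw [← nsmul_eq_mul, ← Finset.card_univ, ← Finset.sum_const]
    exact Finset.sum_le_sum fun x _ => h1 x
  have b2 : ∑ x ∈ (negc j)ᶜ, ∑ i ∈ I, ∑ z ∈ negc i, κ i x z ≤
      (Fintype.card (W j) : ℝ) * (4 / 10000) := by
    refine (Finset.sum_le_sum h2).trans ?_
    rw [Finset.sum_const, nsmul_eq_mul]
    refine mul_le_mul_of_nonneg_right ?_ (by norm_num)
    exact_mod_cast Finset.card_le_univ _
  have b3 : ∑ k : Fin 4, ∑ i ∈ I, ∑ x, ∑ z, |κ i (marg _ k x) (marg _ k z) - κ i x z| ≤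
      4 * ((Fintype.card (W j) : ℝ) * (1 / 10000)) := by
    have : ∀ k : Fin 4, ∑ i ∈ I, ∑ x, ∑ z, |κ i (marg _ k x) (marg _ k z) - κ i x z| ≤
        (Fintype.card (W j) : ℝ) * (1 / 10000) := by
      intro k
      rw [Finset.sum_comm, ← nsmul_eq_mul, ← Finset.card_univ, ← Finset.sum_const]
      exact Finset.sum_le_sum fun x _ => h3 k x
    rw [Fin.sum_univ_four]
    linarith [this 0, this 1, this 2, this 3]
  have b4 : (0 : ℝ) < Fintype.card (W j) := by exact_mod_cast Fintype.card_pos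
  linarith

end Vale.Agent.P090
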